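import Vale.Agent.P344.FFT

/-! Eight copies of a Fourier matrix of any size have an in place circuit of logarithmic depth. -/

namespace Vale.Agent.P344

open Finset Matrix Kronecker

set_option linter.unusedSectionVars false

theorem acc_circ (l : ℕ) {ω : ℂ} (h : IsPrimitiveRoot ω (2 ^ l)) (Δ : Fin (2 ^ l) → ℂ) :
    Acc (6 + 4 * l) (Fm (2 ^ l) ω⁻¹ * diagonal Δ * Fm (2 ^ l) ω) := by
  have h1 : Acc (2 * 3) (diagonal Δ * (1 : Matrix (Fin (2 ^ l)) (Fin (2 ^ l)) ℂ)) :=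
    Acc.one.diag_mul Δ
  rw [Matrix.mul_one] at h1
  have hF := depth_Fm l _ rfl ω h
  have hG := depth_Fm l _ rfl ω⁻¹ h.inv
  have hpos : 0 < 2 ^ l := by positivity
  have := Fm_inv_mul h.inv hpos
  rw [inv_inv] at this
  exact h1.conj hF (hG.mon_mul (IsMon.diagonal _)) hG (hF.mon_mul (IsMon.diagonal _))
    (Fm_inv_mul h hpos) (mul_eq_one_comm.1 this)

theorem exists_place {q t : ℕ} (h1 : q ≤ t) (h2 : t ≤ 4 * q) (c₀ : Fin 4) :
    ∃ e : Fin 4 × Fin q ≃ Fin t ⊕ Fin (4 * q - t),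
      ∀ j : Fin q, e (c₀, j) = Sum.inl (Fin.castLE h1 j) := by
  refine ⟨(Equiv.prodCongr (Equiv.swap c₀ 0) (Equiv.refl _)).trans (finProdFinEquiv.trans
    ((finCongr (by omega)).trans finSumFinEquiv.symm)), fun j => ?_⟩
  simp only [Equiv.trans_apply, Equiv.prodCongr_apply, Prod.map, Equiv.swap_apply_left,
    Equiv.refl_apply, Equiv.symm_apply_eq]
  ext
  simp

theorem acc_Fm {q l : ℕ} (h1 : 2 * q ≤ 2 ^ l) (h2 : 2 ^ l ≤ 4 * q) {ζ : ℂ} (hζ : ζ ≠ 0) :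
    Acc (16 * (6 + 4 * l)) ((1 : Matrix (Fin 4) (Fin 4) ℂ) ⊗ₖ Fm q ζ) := by
  have hω := Complex.isPrimitiveRoot_exp (2 ^ l) (by positivity)
  obtain ⟨Δ, p, hp⟩ := bluestein h1 (by positivity) hω hζ
  have hq : q ≤ 2 ^ l := by omega
  choose e he using fun c₀ => exists_place hq h2 c₀
  have hc := acc_circ l hω Δ
  set Cm := Fm (2 ^ l) (Complex.exp (2 * Real.pi * Complex.I / (2 ^ l : ℕ)))⁻¹ * diagonal Δ *
    Fm (2 ^ l) (Complex.exp (2 * Real.pi * Complex.I / (2 ^ l : ℕ))) with hCm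
  have h3 := fun c₀ : Fin 4 =>
    (((hc.extend (R := Fin (4 * q - 2 ^ l)) (R' := Fin (4 * q - 2 ^ l))).reindex
      (e c₀) (e c₀)).diag_mul (fun x => if x.1 = c₀ then p x.2 else 0)).mul_diag
      (fun x => if x.1 = c₀ then p x.2 else 0)
  have h4 := Acc.sum Finset.univ _ h3
  rw [Finset.card_univ, Fintype.card_fin] at h4
  convert h4 using 1
  · ring
  · ext ⟨c, j⟩ ⟨c', k⟩
    simp only [Matrix.sum_apply, mul_diagonal, diagonal_mul, submatrix_apply, kroneckerMap_apply,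
      Matrix.one_apply, mul_ite, ite_mul, zero_mul, mul_zero, one_mul]
    rw [Finset.sum_ite_eq]
    simp only [Finset.mem_univ, if_true]
    split_ifs with h
    · subst h
      rw [he, he, fromBlocks_apply₁₁]
      exact (hp (Fin.castLE hq j) (Fin.castLE hq k) j.2 k.2).symm
    · rfl

theorem depth_axis {q l : ℕ} (h1 : 2 * q ≤ 2 ^ l) (h2 : 2 ^ l ≤ 4 * q) {ζ : ℂ}
    (hζ : IsPrimitiveRoot ζ q) :
    Depth (64 * (6 + 4 * l)) ((1 : Matrix (Fin 4 ⊕ Fin 4) (Fin 4 ⊕ Fin 4) ℂ) ⊗ₖ Fm q ζ) := by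
  have hq : 0 < q := by
    have : 0 < 2 ^ l := by positivity
    omega
  have hq' : (q : ℂ) ≠ 0 := by exact_mod_cast hq.ne'
  have hζ0 : ζ ≠ 0 := hζ.ne_zero hq.ne'
  have hA := acc_Fm h1 h2 hζ0
  have hB := (acc_Fm h1 h2 (inv_ne_zero hζ0)).diag_mul (fun _ => -(q : ℂ)⁻¹)
  set A := (1 : Matrix (Fin 4) (Fin 4) ℂ) ⊗ₖ Fm q ζ with hAdef
  set B := diagonal (fun _ => -(q : ℂ)⁻¹) * ((1 : Matrix (Fin 4) (Fin 4) ℂ) ⊗ₖ Fm q ζ⁻¹)
    with hBdef
  have hBA : B * A = -1 := by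
    have := Fm_inv_mul hζ hq
    rw [← smul_one_eq_diagonal, Matrix.smul_mul, Matrix.one_mul, Matrix.smul_mul] at this
    rw [hBdef, hAdef, ← smul_one_eq_diagonal, Matrix.smul_mul, Matrix.one_mul, Matrix.smul_mul,
      ← mul_kronecker_mul, Matrix.one_mul, neg_smul, ← kronecker_smul, this, one_kronecker_one]
  have hAB : A * B = -1 := by
    have : (-B) * A = 1 := by rw [Matrix.neg_mul, hBA, neg_neg]
    have := mul_eq_one_comm.1 this
    rw [Matrix.mul_neg] at this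
    rw [← this, neg_neg]
  have hB' : Depth (2 * (16 * (6 + 4 * l))) (fromBlocks 1 B 0 1) := by
    have := Depth.reindex hB (Equiv.sumComm _ _)
    convert this using 1
    ext (a | a) (b | b) <;> simp
  have h3 : Depth (64 * (6 + 4 * l)) (fromBlocks 0 B A 0) := by
    have := (Depth.mul hA hB').mul hA
    convert this using 1
    · ring
    · simp [fromBlocks_multiply, hBA, hAB]
  let neg : Fin q → Fin q := fun j => ⟨(q - j) % q, Nat.mod_lt _ hq⟩
  have hneg : ∀ j k, Fm q ζ⁻¹ (neg j) k = Fm q ζ j k := by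
    intro j k
    simp only [Fm, neg, pow_mul]
    congr 1
    rw [← pow_eq_pow_mod _ hζ.inv.pow_eq_one, inv_pow, pow_sub₀ _ hζ0 j.2.le, hζ.pow_eq_one]
    simp
  have h4 := (h3.submatrix
    (fun x : (Fin 4 ⊕ Fin 4) × Fin q =>
      Sum.elim (fun c => Sum.inr (c, x.2)) (fun c => Sum.inl (c, neg x.2)) x.1)
    (Equiv.sumProdDistrib _ _ _)).mon_mul
    (IsMon.diagonal fun x => Sum.elim (fun _ => 1) (fun _ => -(q : ℂ)) x.1)
  convert h4 using 1
  ext ⟨c | c, j⟩ ⟨c' | c', k⟩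
  · simp [diagonal_mul, hAdef, Matrix.one_apply]
  · simp [diagonal_mul]
  · simp [diagonal_mul]
  · simp only [diagonal_mul, hBdef, kroneckerMap_apply, Sum.elim_inr, submatrix_apply,
      Equiv.sumProdDistrib_apply_right, fromBlocks_apply₁₂, hneg, Matrix.one_apply, Sum.inr.injEq]
    field_simp

theorem exists_pow_two {q : ℕ} (hq : 0 < q) : ∃ l, 2 * q ≤ 2 ^ l ∧ 2 ^ l ≤ 4 * q := by
  refine ⟨Nat.log 2 q + 2, ?_, ?_⟩
  · have := Nat.lt_pow_succ_log_self (b := 2) (by norm_num) q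
    rw [pow_succ] at *
    omega
  · have := Nat.pow_log_le_self 2 hq.ne'
    rw [pow_succ, pow_succ]
    omega

end Vale.Agent.P344
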