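import Vale.Agent.P344.Defs

/-! A cost calculus for linear straight-line programs. -/

namespace Vale.Agent.P344

open Finset

set_option linter.unusedSectionVars false

variable {V : Type} [AddCommGroup V] [Module ℂ V]

inductive Steps : Set V → ℕ → Set V → Prop
  | done (A B : Set V) (h : B ⊆ insert 0 A) : Steps A 0 B
  | add (A B : Set V) (n : ℕ) (u v : V) (hu : u ∈ insert 0 A) (hv : v ∈ insert 0 A)
      (h : Steps (insert (u + v) A) n B) : Steps A (n + 1) B
  | smul (A B : Set V) (n : ℕ) (c : ℂ) (u : V) (hu : u ∈ insert 0 A)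
      (h : Steps (insert (c • u) A) n B) : Steps A (n + 1) B

theorem sub_ins {A A' : Set V} (h : A ⊆ insert 0 A') : insert 0 A ⊆ insert 0 A' :=
  Set.insert_subset (Set.mem_insert _ _) h

theorem ins_sub_ins {A A' : Set V} (w : V) (h : A ⊆ insert 0 A') :
    insert w A ⊆ insert 0 (insert w A') := by
  intro x hx
  rcases hx with rfl | hx
  · exact Or.inr (Or.inl rfl)
  · rcases h hx with h | h
    · exact Or.inl h
    · exact Or.inr (Or.inr h)

theorem Steps.mono_left {A B : Set V} {n : ℕ} (h : Steps A n B) :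
    ∀ {A' : Set V}, A ⊆ insert 0 A' → Steps A' n B := by
  induction h with
  | done A B h => intro A' hA; exact Steps.done _ _ (h.trans (sub_ins hA))
  | add A B n u v hu hv _ ih =>
    intro A' hA
    exact Steps.add _ _ _ u v (sub_ins hA hu) (sub_ins hA hv) (ih (ins_sub_ins _ hA))
  | smul A B n c u hu _ ih =>
    intro A' hA
    exact Steps.smul _ _ _ c u (sub_ins hA hu) (ih (ins_sub_ins _ hA))

theorem Steps.trans {A B : Set V} {n : ℕ} (h : Steps A n B) :
    ∀ {C : Set V} {m : ℕ}, Steps (A ∪ B) m C → Steps A (n + m) C := by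
  induction h with
  | done A B h =>
    intro C m hC
    rw [zero_add]
    exact hC.mono_left (Set.union_subset (Set.subset_insert _ _) h)
  | add A B n u v hu hv _ ih =>
    intro C m hC
    rw [Nat.add_right_comm]
    refine Steps.add _ _ _ u v hu hv (ih (hC.mono_left ?_))
    exact (Set.union_subset_union_left _ (Set.subset_insert _ _)).trans (Set.subset_insert _ _)
  | smul A B n c u hu _ ih =>
    intro C m hC
    rw [Nat.add_right_comm]
    refine Steps.smul _ _ _ c u hu (ih (hC.mono_left ?_))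
    exact (Set.union_subset_union_left _ (Set.subset_insert _ _)).trans (Set.subset_insert _ _)

/-- From the values in `A`, the values in `B` can be computed with at most `s` gates. -/
def Comp (A : Set V) (s : ℝ) (B : Set V) : Prop := ∃ n : ℕ, (n : ℝ) ≤ s ∧ Steps A n B

theorem Comp.nonneg {A B : Set V} {s : ℝ} (h : Comp A s B) : 0 ≤ s := by
  obtain ⟨n, hn, _⟩ := h
  exact le_trans (Nat.cast_nonneg n) hn

theorem Comp.of_subset' {A B : Set V} {s : ℝ} (h : B ⊆ insert 0 A) (hs : 0 ≤ s) : Comp A s B :=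
  ⟨0, by simpa using hs, Steps.done _ _ h⟩

theorem Comp.of_subset {A B : Set V} {s : ℝ} (h : B ⊆ A) (hs : 0 ≤ s) : Comp A s B :=
  Comp.of_subset' (h.trans (Set.subset_insert _ _)) hs

theorem Comp.mono_left {A A' B : Set V} {s : ℝ} (h : Comp A s B) (hA : A ⊆ A') : Comp A' s B := by
  obtain ⟨n, hn, h⟩ := h
  exact ⟨n, hn, h.mono_left (hA.trans (Set.subset_insert _ _))⟩

theorem Comp.mono_cost {A B : Set V} {s t : ℝ} (h : Comp A s B) (hs : s ≤ t) : Comp A t B := by
  obtain ⟨n, hn, h⟩ := h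
  exact ⟨n, hn.trans hs, h⟩

theorem Comp.trans {A B C : Set V} {s t : ℝ} (h : Comp A s B) (h' : Comp (A ∪ B) t C) :
    Comp A (s + t) C := by
  obtain ⟨n, hn, h⟩ := h
  obtain ⟨m, hm, h'⟩ := h'
  exact ⟨n + m, by push_cast; linarith, h.trans h'⟩

theorem Comp.trans' {A B C : Set V} {s t : ℝ} (h : Comp A s B) (h' : Comp B t C) :
    Comp A (s + t) C := h.trans (h'.mono_left Set.subset_union_right)

theorem Comp.mono_right' {A B B' : Set V} {s : ℝ} (h : Comp A s B) (hB : B' ⊆ A ∪ B) :
    Comp A s B' := by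
  simpa using h.trans (Comp.of_subset hB le_rfl)

theorem Comp.mono_right {A B B' : Set V} {s : ℝ} (h : Comp A s B) (hB : B' ⊆ B) :
    Comp A s B' := h.mono_right' (hB.trans Set.subset_union_right)

theorem Comp.keep {A B : Set V} {s : ℝ} (h : Comp A s B) : Comp A s (A ∪ B) :=
  h.mono_right' le_rfl

theorem Comp.union {A B C : Set V} {s t : ℝ} (h : Comp A s B) (h' : Comp A t C) :
    Comp A (s + t) (B ∪ C) := by
  refine h.trans ((h'.mono_left Set.subset_union_left).mono_right' ?_)
  intro x hx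
  rcases hx with hx | hx
  · exact Or.inl (Or.inr hx)
  · exact Or.inr hx

theorem Comp.biUnion {ι : Type*} (Z : Finset ι) {A : Set V} (B : ι → Set V) (c : ι → ℝ)
    (h : ∀ i ∈ Z, Comp A (c i) (B i)) : Comp A (∑ i ∈ Z, c i) (⋃ i ∈ Z, B i) := by
  classical
  induction Z using Finset.induction_on with
  | empty => exact Comp.of_subset (by simp) (by simp)
  | insert a Z ha ih =>
    rw [Finset.sum_insert ha, Finset.set_biUnion_insert]
    exact (h a (by simp)).union (ih fun i hi => h i (by simp [hi]))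

theorem Comp.iUnion' {ι : Type*} [Fintype ι] {A : Set V} (B : ι → Set V) (c : ι → ℝ)
    (h : ∀ i, Comp A (c i) (B i)) : Comp A (∑ i, c i) (⋃ i, B i) := by
  simpa using Comp.biUnion Finset.univ B c (fun i _ => h i)

theorem Comp.iUnion {ι : Type*} [Fintype ι] {A : Set V} (B : ι → Set V) (c : ℝ)
    (h : ∀ i, Comp A c (B i)) : Comp A (Fintype.card ι * c) (⋃ i, B i) := by
  simpa using Comp.iUnion' B (fun _ => c) h

theorem Comp.range {ι : Type*} [Fintype ι] {A : Set V} (b : ι → V) (c : ℝ)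
    (h : ∀ i, Comp A c {b i}) : Comp A (Fintype.card ι * c) (Set.range b) := by
  refine (Comp.iUnion (fun i => {b i}) c h).mono_right ?_
  rintro _ ⟨i, rfl⟩
  exact Set.mem_iUnion.2 ⟨i, rfl⟩

theorem Comp.add1 {A : Set V} {u v : V} (hu : u ∈ A) (hv : v ∈ A) : Comp A 1 {u + v} :=
  ⟨1, by simp, Steps.add _ _ 0 u v (Or.inr hu) (Or.inr hv) (Steps.done _ _ (by simp))⟩

theorem Comp.smul1 {A : Set V} (c : ℂ) {u : V} (hu : u ∈ A) : Comp A 1 {c • u} :=
  ⟨1, by simp, Steps.smul _ _ 0 c u (Or.inr hu) (Steps.done _ _ (by simp))⟩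

theorem Comp.lincomb {ι : Type*} (Z : Finset ι) {A : Set V} (c : ι → ℂ) (a : ι → V)
    (h : ∀ i ∈ Z, c i ≠ 0 → a i ∈ A) : Comp A (2 * Z.card) {∑ i ∈ Z, c i • a i} := by
  classical
  induction Z using Finset.induction_on with
  | empty => exact Comp.of_subset' (by simp) (by simp)
  | insert i Z hi ih =>
    rw [Finset.sum_insert hi, Finset.card_insert_of_notMem hi]
    have ih := ih fun j hj => h j (by simp [hj])
    by_cases hc : c i = 0
    · rw [hc, zero_smul, zero_add]
      exact ih.mono_cost (by push_cast; linarith)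
    · have h1 := ih.union (Comp.smul1 (c i) (h i (by simp) hc))
      have h2 := h1.trans' (Comp.add1 (u := c i • a i) (v := ∑ i ∈ Z, c i • a i) (by simp) (by simp))
      exact h2.mono_cost (by push_cast; linarith)

/-- The action of a matrix on a family of vectors. -/
noncomputable def act {ι κ : Type*} [Fintype ι] (M : Matrix κ ι ℂ) (f : ι → V) : κ → V :=
  fun k => ∑ i, M k i • f i

theorem act_mul {ι κ μ : Type*} [Fintype ι] [Fintype κ] (M : Matrix μ κ ℂ) (N : Matrix κ ι ℂ)
    (f : ι → V) : act (M * N) f = act M (act N f) := by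
  funext k
  simp only [act, Matrix.mul_apply, Finset.sum_smul, Finset.smul_sum, mul_smul]
  exact Finset.sum_comm

theorem act_one {ι : Type*} [Fintype ι] [DecidableEq ι] (f : ι → V) :
    act (1 : Matrix ι ι ℂ) f = f := by
  funext k
  simp [act, Matrix.one_apply, ite_smul]

variable (V) in
/-- `D` simultaneous applications of `M` cost at most `s` gates. -/
def CostF (D : Type*) {ι κ : Type*} [Fintype ι] (M : Matrix κ ι ℂ) (s : ℝ) : Prop :=
  ∀ (A : Set V) (v : D → ι → V), (∀ d i, v d i ∈ A) → Comp A s {r | ∃ d k, r = act M (v d) k}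

variable (V) in
/-- One application of `M` costs at most `s` gates. -/
def Cost {ι κ : Type*} [Fintype ι] (M : Matrix κ ι ℂ) (s : ℝ) : Prop :=
  ∀ (A : Set V) (f : ι → V), (∀ i, f i ∈ A) → Comp A s (Set.range (act M f))

theorem Cost.mono {ι κ : Type*} [Fintype ι] {M : Matrix κ ι ℂ} {s t : ℝ} (h : Cost V M s)
    (hs : s ≤ t) : Cost V M t := fun A f hf => (h A f hf).mono_cost hs

theorem CostF.mono {D ι κ : Type*} [Fintype ι] {M : Matrix κ ι ℂ} {s t : ℝ} (h : CostF V D M s)
    (hs : s ≤ t) : CostF V D M t := fun A f hf => (h A f hf).mono_cost hs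

theorem Cost.nonneg {ι κ : Type*} [Fintype ι] {M : Matrix κ ι ℂ} {s : ℝ} (h : Cost V M s) :
    0 ≤ s := (h Set.univ (fun _ => 0) (fun _ => trivial)).nonneg

theorem CostF.nonneg {D ι κ : Type*} [Fintype ι] {M : Matrix κ ι ℂ} {s : ℝ} (h : CostF V D M s) :
    0 ≤ s := (h Set.univ (fun _ _ => 0) (fun _ _ => trivial)).nonneg

theorem Cost.toF {ι κ : Type*} [Fintype ι] {M : Matrix κ ι ℂ} {s : ℝ} (h : Cost V M s)
    (D : Type*) [Fintype D] : CostF V D M (Fintype.card D * s) := by
  intro A v hv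
  refine (Comp.iUnion (fun d => Set.range (act M (v d))) s fun d => h A _ (hv d)).mono_right ?_
  rintro _ ⟨d, k, rfl⟩
  exact Set.mem_iUnion.2 ⟨d, k, rfl⟩

theorem CostF.batch {D D' ι κ : Type*} [Fintype ι] [Fintype D] [Fintype D'] [Nonempty D']
    {M : Matrix κ ι ℂ} {s : ℝ} (h : CostF V D M s) (q : ℕ)
    (hq : Fintype.card D' ≤ q * Fintype.card D) : CostF V D' M (q * s) := by
  obtain ⟨e⟩ : Nonempty (D' ↪ Fin q × D) :=
    Function.Embedding.nonempty_of_card_le (by simpa using hq)
  have hs := Function.invFun_surjective e.injective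
  set φ := Function.invFun e
  intro A v hv
  have := Comp.iUnion (fun b : Fin q => {r | ∃ d k, r = act M (v (φ (b, d))) k}) s
    fun b => h A (fun d => v (φ (b, d))) (fun d i => hv _ i)
  rw [Fintype.card_fin] at this
  refine this.mono_right ?_
  rintro _ ⟨d, k, rfl⟩
  obtain ⟨⟨b, d'⟩, rfl⟩ := hs d
  exact Set.mem_iUnion.2 ⟨b, d', k, rfl⟩

theorem Cost.mul {ι κ μ : Type*} [Fintype ι] [Fintype κ] {M : Matrix μ κ ℂ} {N : Matrix κ ι ℂ}
    {s t : ℝ} (hM : Cost V M s) (hN : Cost V N t) : Cost V (M * N) (s + t) := by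
  intro A f hf
  rw [act_mul, add_comm]
  exact (hN A f hf).trans' (hM _ _ fun i => ⟨i, rfl⟩)

theorem Cost.triv {ι κ : Type*} [Fintype ι] [Fintype κ] (M : Matrix κ ι ℂ) :
    Cost V M (Fintype.card κ * (2 * Fintype.card ι)) := by
  intro A f hf
  exact Comp.range _ _ fun k => Comp.lincomb Finset.univ (M k) f fun i _ _ => hf i

theorem act_submatrix {ι ι' κ κ' : Type*} [Fintype ι] [Fintype ι'] (M : Matrix κ ι ℂ)
    (r : κ' → κ) (e : ι' ≃ ι) (f : ι' → V) (k : κ') :
    act (M.submatrix r e) f k = act M (f ∘ e.symm) (r k) := by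
  simp only [act, Matrix.submatrix_apply, Function.comp]
  exact Fintype.sum_equiv e _ _ fun i => by simp

theorem Cost.submatrix {ι ι' κ κ' : Type*} [Fintype ι] [Fintype ι'] {M : Matrix κ ι ℂ} {s : ℝ}
    (h : Cost V M s) (r : κ' → κ) (e : ι' ≃ ι) : Cost V (M.submatrix r e) s := by
  intro A f hf
  refine (h A (f ∘ e.symm) fun i => hf _).mono_right ?_
  rintro _ ⟨k, rfl⟩
  exact ⟨r k, (act_submatrix M r e f k).symm⟩

theorem CostF.submatrix {D ι ι' κ κ' : Type*} [Fintype ι] [Fintype ι'] {M : Matrix κ ι ℂ} {s : ℝ}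
    (h : CostF V D M s) (r : κ' → κ) (e : ι' ≃ ι) : CostF V D (M.submatrix r e) s := by
  intro A f hf
  refine (h A (fun d => f d ∘ e.symm) fun d i => hf _ _).mono_right ?_
  rintro _ ⟨d, k, rfl⟩
  exact ⟨d, r k, act_submatrix M r e (f d) k⟩

open Kronecker in
theorem CostF.one_kron {D ι κ : Type*} [Fintype ι] [Fintype D] [DecidableEq D]
    {M : Matrix κ ι ℂ} {s : ℝ} (h : CostF V D M s) :
    Cost V ((1 : Matrix D D ℂ) ⊗ₖ M) s := by
  intro A f hf
  refine (h A (fun d i => f (d, i)) fun d i => hf _).mono_right ?_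
  rintro _ ⟨⟨d, k⟩, rfl⟩
  refine ⟨d, k, ?_⟩
  simp [act, Fintype.sum_prod_type, Matrix.one_apply, ite_smul, Finset.sum_ite_irrel]

open Kronecker in
theorem CostF.kron_one {D ι κ : Type*} [Fintype ι] [Fintype D] [DecidableEq D]
    {M : Matrix κ ι ℂ} {s : ℝ} (h : CostF V D M s) :
    Cost V (M ⊗ₖ (1 : Matrix D D ℂ)) s := by
  intro A f hf
  refine (h A (fun d i => f (i, d)) fun d i => hf _).mono_right ?_
  rintro _ ⟨⟨k, d⟩, rfl⟩
  refine ⟨d, k, ?_⟩
  simp [act, Fintype.sum_prod_type, Matrix.one_apply, ite_smul]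

open Kronecker in
theorem Cost.of_one_kron {D ι κ : Type*} [Fintype ι] [Fintype D] [DecidableEq D]
    {M : Matrix κ ι ℂ} {s : ℝ} (h : Cost V ((1 : Matrix D D ℂ) ⊗ₖ M) s) : CostF V D M s := by
  intro A v hv
  refine (h A (fun p => v p.1 p.2) fun p => hv _ _).mono_right ?_
  rintro _ ⟨d, k, rfl⟩
  refine ⟨(d, k), ?_⟩
  simp [act, Fintype.sum_prod_type, Matrix.one_apply, ite_smul, Finset.sum_ite_irrel]

/-- At most one nonzero entry in each row. -/
def IsMon {ι κ : Type*} (P : Matrix κ ι ℂ) : Prop :=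
  ∀ k, ∃ i₀, ∀ i, i ≠ i₀ → P k i = 0

theorem IsMon.cost {ι κ : Type*} [Fintype ι] [Fintype κ] {P : Matrix κ ι ℂ} (h : IsMon P) :
    Cost V P (Fintype.card κ) := by
  intro A f hf
  have := Comp.range (A := A) (act P f) 1 fun k => by
    obtain ⟨i₀, hi⟩ := h k
    have : act P f k = P k i₀ • f i₀ := by
      refine Finset.sum_eq_single i₀ (fun i _ h => by rw [hi i h, zero_smul]) (by simp)
    rw [this]
    exact Comp.smul1 _ (hf _)
  simpa using this

/-! ### From the calculus to circuits -/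

theorem getD_map_of_mem {W : Type} (vals : List (W → ℂ)) (u : W → ℂ) (hu : u ∈ vals) :
    ∃ i < vals.length, ∀ x : W, (vals.map (fun v => v x)).getD i 0 = u x := by
  obtain ⟨i, hi, rfl⟩ := List.getElem_of_mem hu
  exact ⟨i, hi, fun x => by simp [List.getD_eq_getElem?_getD, hi]⟩

theorem Steps.toGates {W : Type} {A B : Set (W → ℂ)} {n : ℕ} (h : Steps A n B) :
    ∀ vals : List (W → ℂ), (∀ u ∈ insert 0 A, u ∈ vals) →
      ∃ gates : List Gate, gates.length = n ∧ WellFormed vals.length gates ∧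
        ∃ vals' : List (W → ℂ), vals'.length = vals.length + n ∧ (∀ u ∈ B, u ∈ vals') ∧
          ∀ x : W, run (vals.map fun v => v x) gates = vals'.map fun v => v x := by
  induction h with
  | done A B h =>
    intro vals hv
    exact ⟨[], rfl, trivial, vals, rfl, fun u hu => hv u (h hu), fun x => rfl⟩
  | add A B n u v hu hv _ ih =>
    intro vals hvals
    obtain ⟨i, hi, hi'⟩ := getD_map_of_mem vals u (hvals u hu)
    obtain ⟨j, hj, hj'⟩ := getD_map_of_mem vals v (hvals v hv)
    obtain ⟨gates, hlen, hwf, vals', hl', hB, hrun⟩ := ih (vals ++ [u + v]) (by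
      intro w hw
      rcases hw with rfl | rfl | hw
      · exact List.mem_append_left _ (hvals _ (Or.inl rfl))
      · simp
      · exact List.mem_append_left _ (hvals _ (Or.inr hw)))
    refine ⟨Gate.add i j :: gates, by simp [hlen], ⟨⟨hi, hj⟩, by simpa using hwf⟩, vals',
      by simp at hl'; omega, hB, fun x => ?_⟩
    rw [← hrun x, run, Gate.value, hi', hj']
    simp
  | smul A B n c u hu _ ih =>
    intro vals hvals
    obtain ⟨i, hi, hi'⟩ := getD_map_of_mem vals u (hvals u hu)
    obtain ⟨gates, hlen, hwf, vals', hl', hB, hrun⟩ := ih (vals ++ [c • u]) (by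
      intro w hw
      rcases hw with rfl | rfl | hw
      · exact List.mem_append_left _ (hvals _ (Or.inl rfl))
      · simp
      · exact List.mem_append_left _ (hvals _ (Or.inr hw)))
    refine ⟨Gate.smul c i :: gates, by simp [hlen], ⟨hi, by simpa using hwf⟩, vals',
      by simp at hl'; omega, hB, fun x => ?_⟩
    rw [← hrun x, run, Gate.value, hi']
    simp

theorem Cost.toCircuit {n : ℕ} {M : Matrix (Fin n) (Fin n) ℂ} {s : ℝ}
    (h : Cost ((ℕ → ℂ) → ℂ) M s) :
    ∃ C : Circuit n, C.Computes M ∧ (C.gates.length : ℝ) ≤ s := by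
  set f : Fin n → (ℕ → ℂ) → ℂ := fun i x => x i with hf
  obtain ⟨m, hm, hs⟩ := h (Set.range f) f fun i => ⟨i, rfl⟩
  obtain ⟨gates, hlen, hwf, vals', hl', hB, hrun⟩ := hs.toGates (0 :: List.ofFn f) (by
    intro w hw
    rcases hw with rfl | ⟨i, rfl⟩
    · simp
    · exact List.mem_cons_of_mem _ (List.mem_ofFn.2 ⟨i, rfl⟩))
  choose out hout hout' using fun j => getD_map_of_mem vals' (act M f j) (hB _ ⟨j, rfl⟩)
  refine ⟨⟨gates, out, by simpa using hwf, fun j => ?_⟩, ?_, by simpa [hlen] using hm⟩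
  · have := hout j
    simp at hl'
    omega
  · intro x j
    set x' : ℕ → ℂ := fun i => if h : i < n then x ⟨i, h⟩ else 0 with hx'
    have h1 : (0 :: List.ofFn x) = (0 :: List.ofFn f).map fun v => v x' := by
      simp only [List.map_cons, Pi.zero_apply, List.map_ofFn, List.cons.injEq, true_and]
      congr 1
      funext i
      simp [hf, hx']
    show (run (0 :: List.ofFn x) gates).getD (out j) 0 = _
    rw [h1, hrun, hout']
    simp [act, hf, hx', Finset.sum_apply]

end Vale.Agent.P344
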