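import Mathlib

/-! Linear circuits over the complex numbers and the discrete Fourier matrix. -/

namespace Vale.Agent.P344

/-- One gate. Its operands are positions in the list of values computed so far. -/
inductive Gate where
  | add (i j : ℕ) : Gate
  | sub (i j : ℕ) : Gate
  | smul (c : ℂ) (i : ℕ) : Gate

/-- The gate reads only positions below `m`. -/
def Gate.ReadsBelow (m : ℕ) : Gate → Prop
  | Gate.add i j => i < m ∧ j < m
  | Gate.sub i j => i < m ∧ j < m
  | Gate.smul _ i => i < m

/-- The value of a gate, given the list of values computed so far. -/
noncomputable def Gate.value (vals : List ℂ) : Gate → ℂ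
  | Gate.add i j => vals.getD i 0 + vals.getD j 0
  | Gate.sub i j => vals.getD i 0 - vals.getD j 0
  | Gate.smul c i => c * vals.getD i 0

/-- Every gate of the list reads only previously computed values, when `m` values are
available before the first gate and each gate appends one value. -/
def WellFormed : ℕ → List Gate → Prop
  | _, [] => True
  | m, g :: gs => g.ReadsBelow m ∧ WellFormed (m + 1) gs

/-- Run the gates in order; each gate appends its value to the list of computed values. -/
noncomputable def run : List ℂ → List Gate → List ℂ
  | vals, [] => vals
  | vals, g :: gs => run (vals ++ [g.value vals]) gs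

/-- A linear circuit with `n` inputs and `n` outputs. The initial values are the constant `0`
followed by the inputs `x 0, …, x (n-1)`; the outputs are designated computed values. -/
structure Circuit (n : ℕ) where
  gates : List Gate
  out : Fin n → ℕ
  gates_wf : WellFormed (n + 1) gates
  out_lt : ∀ j, out j < n + 1 + gates.length

/-- The circuit outputs `M x` for every input `x`. -/
def Circuit.Computes {n : ℕ} (C : Circuit n) (M : Matrix (Fin n) (Fin n) ℂ) : Prop :=
  ∀ (x : Fin n → ℂ) (j : Fin n),
    (run (0 :: List.ofFn x) C.gates).getD (C.out j) 0 = ∑ k, M j k * x k

/-- The unnormalized discrete Fourier matrix, with entries `exp (2 π i / n) ^ (j k)`. -/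
noncomputable def dft (n : ℕ) : Matrix (Fin n) (Fin n) ℂ :=
  fun j k => Complex.exp (2 * Real.pi * Complex.I / n) ^ ((j : ℕ) * (k : ℕ))

/-- The least number of gates of a linear circuit computing the discrete Fourier transform. -/
noncomputable def L (n : ℕ) : ℕ :=
  sInf {s | ∃ C : Circuit n, C.Computes (dft n) ∧ C.gates.length = s}

end Vale.Agent.P344
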