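import Vale.Agent.P344.Recurrence

/-! In place circuits made of layers of two by two gates, and their tensor products. -/

namespace Vale.Agent.P344

open Finset Matrix Kronecker

set_option linter.unusedSectionVars false

theorem IsMon.mul {ι κ μ : Type*} [Fintype κ] {P : Matrix μ κ ℂ} {Q : Matrix κ ι ℂ}
    (hP : IsMon P) (hQ : IsMon Q) : IsMon (P * Q) := by
  intro k
  obtain ⟨i₀, hi⟩ := hP k
  obtain ⟨j₀, hj⟩ := hQ i₀
  refine ⟨j₀, fun j hj' => ?_⟩
  rw [Matrix.mul_apply]
  refine Finset.sum_eq_zero fun i _ => ?_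
  by_cases h : i = i₀
  · rw [h, hj j hj', mul_zero]
  · rw [hi i h, zero_mul]

theorem IsMon.diagonal {J : Type*} [DecidableEq J] (p : J → ℂ) : IsMon (diagonal p) :=
  fun k => ⟨k, fun _ hi => Matrix.diagonal_apply_ne _ (Ne.symm hi)⟩

theorem IsMon.one {J : Type*} [DecidableEq J] : IsMon (1 : Matrix J J ℂ) := IsMon.diagonal _

theorem IsMon.submatrix {ι ι' κ κ' : Type*} {P : Matrix κ ι ℂ} (hP : IsMon P) (r : κ' → κ)
    (e : ι' ≃ ι) : IsMon (P.submatrix r e) := by
  intro k
  obtain ⟨i₀, hi⟩ := hP (r k)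
  exact ⟨e.symm i₀, fun i h => hi _ fun h' => h (by rw [← h']; simp)⟩

section depth

variable {J J' : Type*} [Fintype J] [DecidableEq J] [Fintype J'] [DecidableEq J']

/-- The fixed two by two gate applied to each pair of an involution. -/
noncomputable def Sw (σ : J → J) : Matrix J J ℂ :=
  fun j k => (if k = j then sk 0 else 0) + (if k = σ j then sk 1 else 0)

def Depth : ℕ → Matrix J J ℂ → Prop
  | 0, M => IsMon M
  | d + 1, M => ∃ P σ M', IsMon P ∧ Function.Involutive σ ∧ Depth d M' ∧ M = P * Sw σ * M'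

theorem Sw_id : Sw (id : J → J) = 1 := by
  ext j k
  by_cases h : k = j
  · subst h; simp [Sw, sk_add]
  · simp [Sw, h, Matrix.one_apply_ne (Ne.symm h)]

theorem IsMon.depth {M : Matrix J J ℂ} (h : IsMon M) : Depth 0 M := h

theorem Depth.mon_mul {d : ℕ} {P M : Matrix J J ℂ} (hP : IsMon P) (h : Depth d M) :
    Depth d (P * M) := by
  cases d with
  | zero => exact IsMon.mul hP h
  | succ d =>
    obtain ⟨Q, σ, M', hQ, hσ, hM', rfl⟩ := h
    exact ⟨P * Q, σ, M', hP.mul hQ, hσ, hM', by simp only [Matrix.mul_assoc]⟩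

theorem Depth.mul {d e : ℕ} {M N : Matrix J J ℂ} (h : Depth d M) (h' : Depth e N) :
    Depth (d + e) (M * N) := by
  induction d generalizing M with
  | zero => rw [zero_add]; exact h'.mon_mul h
  | succ d ih =>
    obtain ⟨Q, σ, M', hQ, hσ, hM', rfl⟩ := h
    rw [Nat.add_right_comm]
    exact ⟨Q, σ, M' * N, hQ, hσ, ih hM', by simp only [Matrix.mul_assoc]⟩

theorem Depth.succ {d : ℕ} {M : Matrix J J ℂ} (h : Depth d M) : Depth (d + 1) M :=
  ⟨1, id, M, IsMon.one, fun _ => rfl, h, by rw [Sw_id]; simp⟩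

theorem Depth.mono {d e : ℕ} {M : Matrix J J ℂ} (h : Depth d M) (hde : d ≤ e) : Depth e M := by
  induction hde with
  | refl => exact h
  | step _ ih => exact ih.succ

theorem Depth.sw {σ : J → J} (hσ : Function.Involutive σ) : Depth 1 (Sw σ) :=
  ⟨1, σ, 1, IsMon.one, hσ, IsMon.one, by simp⟩

theorem Depth.map (Φ : Matrix J J ℂ → Matrix J' J' ℂ) (hmul : ∀ M N, Φ (M * N) = Φ M * Φ N)
    (hmon : ∀ P, IsMon P → IsMon (Φ P))
    (hsw : ∀ σ, Function.Involutive σ → ∃ σ', Function.Involutive σ' ∧ Φ (Sw σ) = Sw σ')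
    {d : ℕ} {M : Matrix J J ℂ} (h : Depth d M) : Depth d (Φ M) := by
  induction d generalizing M with
  | zero => exact hmon M h
  | succ d ih =>
    obtain ⟨Q, σ, M', hQ, hσ, hM', rfl⟩ := h
    obtain ⟨σ', hσ', h'⟩ := hsw σ hσ
    exact ⟨Φ Q, σ', Φ M', hmon Q hQ, hσ', ih hM', by rw [hmul, hmul, h']⟩

theorem Depth.reindex {d : ℕ} {M : Matrix J J ℂ} (h : Depth d M) (e : J' ≃ J) :
    Depth d (M.submatrix e e) := by
  refine Depth.map (fun M => M.submatrix e e) (fun M N => ?_) (fun P hP => hP.submatrix e e)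
    (fun σ hσ => ⟨fun j => e.symm (σ (e j)), fun j => by simp [hσ _], ?_⟩) h
  · exact (Matrix.submatrix_mul_equiv M N e e e).symm
  · ext j k
    simp [Sw, Equiv.eq_symm_apply]

theorem Depth.submatrix {d : ℕ} {M : Matrix J J ℂ} (h : Depth d M) (r : J' → J) (e : J' ≃ J) :
    Depth d (M.submatrix r e) := by
  have := (h.reindex e).mon_mul (IsMon.one.submatrix r e)
  rwa [Matrix.submatrix_mul_equiv, Matrix.one_mul] at this

theorem Depth.one_kron {d : ℕ} {M : Matrix J J ℂ} (h : Depth d M) :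
    Depth d ((1 : Matrix J' J' ℂ) ⊗ₖ M) := by
  refine Depth.map (fun M => (1 : Matrix J' J' ℂ) ⊗ₖ M) (fun M N => ?_) (fun P hP => ?_)
    (fun σ hσ => ⟨fun p => (p.1, σ p.2), fun p => by simp [hσ _], ?_⟩) h
  · rw [← mul_kronecker_mul, Matrix.one_mul]
  · rintro ⟨r, j⟩
    obtain ⟨i₀, hi⟩ := hP j
    refine ⟨(r, i₀), ?_⟩
    rintro ⟨r', i⟩ h
    by_cases h1 : r = r'
    · subst h1
      simp [hi i (fun h' => h (by rw [h']))]
    · simp [Matrix.one_apply_ne h1]
  · ext ⟨r, j⟩ ⟨r', k⟩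
    by_cases h1 : r = r'
    · subst h1; simp [Sw]
    · simp [Sw, Matrix.one_apply_ne h1, Ne.symm h1]

theorem Depth.kron_one {d : ℕ} {M : Matrix J J ℂ} (h : Depth d M) :
    Depth d (M ⊗ₖ (1 : Matrix J' J' ℂ)) := by
  have := (h.one_kron (J' := J')).reindex (Equiv.prodComm J J')
  convert this using 1
  ext ⟨a, b⟩ ⟨c, d⟩
  simp [mul_comm]

theorem Depth.block_left {d : ℕ} {M : Matrix J J ℂ} (h : Depth d M) :
    Depth d (fromBlocks M 0 0 (1 : Matrix J' J' ℂ)) := by
  refine Depth.map (fun M => fromBlocks M 0 0 (1 : Matrix J' J' ℂ)) (fun M N => ?_)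
    (fun P hP => ?_) (fun σ hσ => ⟨Sum.map σ id, fun p => by cases p <;> simp [hσ _], ?_⟩) h
  · simp [fromBlocks_multiply]
  · rintro (j | j)
    · obtain ⟨i₀, hi⟩ := hP j
      refine ⟨Sum.inl i₀, ?_⟩
      rintro (i | i) h
      · simp [hi i (fun h' => h (by rw [h']))]
      · simp
    · refine ⟨Sum.inr j, ?_⟩
      rintro (i | i) h
      · simp
      · simp [Matrix.one_apply_ne (fun h' => h (by rw [h']) : j ≠ i)]
  · ext (j | j) (k | k)
    · simp [Sw]
    · simp [Sw]
    · simp [Sw]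
    · by_cases h : k = j
      · subst h; simp [Sw, sk_add]
      · simp [Sw, h, Matrix.one_apply_ne (Ne.symm h)]

theorem Depth.block_right {d : ℕ} {M : Matrix J J ℂ} (h : Depth d M) :
    Depth d (fromBlocks (1 : Matrix J' J' ℂ) 0 0 M) := by
  have := (h.block_left (J' := J')).reindex (Equiv.sumComm J' J)
  convert this using 1
  ext (a | a) (b | b) <;> simp

theorem Depth.blocks {d e : ℕ} {M : Matrix J J ℂ} {N : Matrix J' J' ℂ} (h : Depth d M)
    (h' : Depth e N) : Depth (d + e) (fromBlocks M 0 0 N) := by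
  have := (h.block_left (J' := J')).mul (h'.block_right (J' := J))
  simpa [fromBlocks_multiply] using this

end depth

section tens

variable {V : Type} [AddCommGroup V] [Module ℂ V]
variable {ι : Type} [Fintype ι] [DecidableEq ι] {J : ι → Type*} [∀ i, Fintype (J i)]
  [∀ i, DecidableEq (J i)]

noncomputable def tens (M : ∀ i, Matrix (J i) (J i) ℂ) : Matrix (∀ i, J i) (∀ i, J i) ℂ :=
  fun x y => ∏ i, M i (x i) (y i)

theorem tens_mul (M N : ∀ i, Matrix (J i) (J i) ℂ) :
    tens (fun i => M i * N i) = tens M * tens N := by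
  ext x y
  simp only [tens, Matrix.mul_apply]
  rw [Fintype.prod_sum]
  exact Finset.sum_congr rfl fun z _ => Finset.prod_mul_distrib

theorem IsMon.tens {M : ∀ i, Matrix (J i) (J i) ℂ} (h : ∀ i, IsMon (M i)) : IsMon (tens M) := by
  intro x
  choose f hf using fun i => h i (x i)
  refine ⟨f, fun y hy => ?_⟩
  obtain ⟨i, hi⟩ := Function.ne_iff.1 hy
  exact Finset.prod_eq_zero (Finset.mem_univ i) (hf i _ hi)

theorem exists_parity {J : Type*} [Fintype J] {σ : J → J} (hσ : Function.Involutive σ) :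
    ∃ ρ : J → Prop, (∀ j, ρ j ∨ ρ (σ j)) ∧ ∀ j, ρ j → ρ (σ j) → σ j = j := by
  let e := Fintype.equivFin J
  refine ⟨fun j => e j ≤ e (σ j), fun j => ?_, fun j h1 h2 => ?_⟩
  · simp only [hσ j]; exact le_total _ _
  · simp only [hσ j] at h2
    exact e.injective (le_antisymm h2 h1)

/-- The orbit map of a point under a family of involutions. -/
def orb (σ : ∀ i, J i → J i) (x : ∀ i, J i) (y : {i // σ i (x i) ≠ x i} → F2) : ∀ i, J i :=
  fun i => if h : σ i (x i) ≠ x i then (if y ⟨i, h⟩ = 0 then x i else σ i (x i)) else x i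

theorem orb_injective (σ : ∀ i, J i → J i) (x : ∀ i, J i) : Function.Injective (orb σ x) := by
  intro y y' h
  funext ⟨i, hi⟩
  have := congrFun h i
  simp only [orb, dif_pos hi] at this
  rcases f2_cases (y ⟨i, hi⟩) with h1 | h1 <;> rcases f2_cases (y' ⟨i, hi⟩) with h2 | h2
  · rw [h1, h2]
  · simp [h1, h2] at this; exact absurd this.symm hi
  · simp [h1, h2] at this; exact absurd this hi
  · rw [h1, h2]

theorem orb_mem (σ : ∀ i, J i → J i) (x : ∀ i, J i) (y : {i // σ i (x i) ≠ x i} → F2) (i : ι) :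
    orb σ x y i = x i ∨ orb σ x y i = σ i (x i) := by
  unfold orb
  split_ifs <;> simp

theorem mem_range_orb (σ : ∀ i, J i → J i) (x z : ∀ i, J i)
    (h : ∀ i, z i = x i ∨ z i = σ i (x i)) : z ∈ Set.range (orb σ x) := by
  refine ⟨fun i => if z i.1 = x i.1 then 0 else 1, ?_⟩
  funext i
  unfold orb
  by_cases hi : σ i (x i) ≠ x i
  · rw [dif_pos hi]
    by_cases hz : z i = x i
    · simp [hz]
    · simp [(h i).resolve_left hz, hi]
  · rw [dif_neg hi]
    rcases h i with h | h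
    · exact h.symm
    · rw [h]; exact (not_not.1 hi).symm

theorem tens_Sw_orb {σ : ∀ i, J i → J i} (hσ : ∀ i, Function.Involutive (σ i)) (x : ∀ i, J i)
    (y y' : {i // σ i (x i) ≠ x i} → F2) :
    tens (fun i => Sw (σ i)) (orb σ x y) (orb σ x y') = Sm _ y y' := by
  have : ∀ i, Sw (σ i) (orb σ x y i) (orb σ x y' i)
      = if h : σ i (x i) ≠ x i then sk (y ⟨i, h⟩ + y' ⟨i, h⟩) else 1 := by
    intro i
    unfold orb
    by_cases hi : σ i (x i) ≠ x i
    · simp only [dif_pos hi]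
      rcases f2_cases (y ⟨i, hi⟩) with h1 | h1 <;> rcases f2_cases (y' ⟨i, hi⟩) with h2 | h2 <;>
        simp [h1, h2, Sw, hi, hi.symm, hσ i (x i), f2_add_self]
    · simp only [dif_neg hi]
      simp [Sw, not_not.1 hi, sk_add]
  simp only [tens, this, Fintype.prod_dite, Finset.prod_const_one, mul_one]
  rfl

theorem act_tens_Sw {σ : ∀ i, J i → J i} (hσ : ∀ i, Function.Involutive (σ i)) (x : ∀ i, J i)
    (f : (∀ i, J i) → V) (y : {i // σ i (x i) ≠ x i} → F2) :
    act (tens fun i => Sw (σ i)) f (orb σ x y) = act (Sm _) (fun y' => f (orb σ x y')) y := by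
  symm
  refine Fintype.sum_of_injective (orb σ x) (orb_injective σ x) _ _ (fun z hz => ?_)
    (fun y' => by rw [tens_Sw_orb hσ])
  by_contra hne
  apply hz
  refine mem_range_orb σ x z fun i => ?_
  have h1 : Sw (σ i) (orb σ x y i) (z i) ≠ 0 := by
    intro h0
    apply hne
    rw [show tens (fun i => Sw (σ i)) (orb σ x y) z = 0 from
      Finset.prod_eq_zero (Finset.mem_univ i) h0, zero_smul]
  have h2 : z i = orb σ x y i ∨ z i = σ i (orb σ x y i) := by
    by_contra h
    rw [not_or] at h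
    exact h1 (by simp [Sw, h.1, h.2])
  rcases orb_mem σ x y i with h3 | h3 <;> rw [h3] at h2
  · exact h2
  · rw [hσ i] at h2; exact h2.symm

theorem cost_tens_Sw {C : ℝ} (hC0 : 0 ≤ C) (hC : ∀ (K : Type) [Fintype K] [DecidableEq K],
      Cost V (Sm K) (C * 2 ^ Fintype.card K * ((Fintype.card K : ℝ) + 1) ^ tau))
    {σ : ∀ i, J i → J i} (hσ : ∀ i, Function.Involutive (σ i)) :
    Cost V (tens fun i => Sw (σ i))
      (Fintype.card (∀ i, J i) * (C * ((Fintype.card ι : ℝ) + 1) ^ tau)) := by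
  classical
  choose ρ hρ1 hρ2 using fun i => exists_parity (hσ i)
  intro A f hf
  let R := {x : ∀ i, J i // ∀ i, ρ i (x i)}
  have h1 := Comp.iUnion' (A := A)
    (fun x : R => Set.range (act (Sm _) (fun y' => f (orb σ x.1 y'))))
    (fun x : R => C * 2 ^ Fintype.card {i // σ i (x.1 i) ≠ x.1 i} *
      ((Fintype.card {i // σ i (x.1 i) ≠ x.1 i} : ℝ) + 1) ^ tau)
    (fun x => hC _ A _ fun _ => hf _)
  have hinj : Function.Injective
      (fun p : Σ x : R, ({i // σ i (x.1 i) ≠ x.1 i} → F2) => orb σ p.1.1 p.2) := by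
    rintro ⟨⟨x, hx⟩, y⟩ ⟨⟨x', hx'⟩, y'⟩ h
    simp only at h
    have hxx : x = x' := by
      funext i
      have h2 := congrFun h i
      rcases orb_mem σ x y i with h3 | h3 <;> rcases orb_mem σ x' y' i with h4 | h4 <;>
        rw [h3, h4] at h2
      · exact h2
      · rw [h2]; exact hρ2 i _ (hx' i) (h2 ▸ hx i)
      · rw [← h2]; exact (hρ2 i _ (hx i) (h2 ▸ hx' i)).symm
      · exact (hσ i).injective h2
    subst hxx
    rw [orb_injective σ x h]
  have hcard := Fintype.card_le_of_injective _ hinj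
  rw [Fintype.card_sigma] at hcard
  have hcard' : ∑ x : R, (2 : ℝ) ^ Fintype.card {i // σ i (x.1 i) ≠ x.1 i}
      ≤ Fintype.card (∀ i, J i) := by
    have : ∀ x : R, Fintype.card ({i // σ i (x.1 i) ≠ x.1 i} → F2)
        = 2 ^ Fintype.card {i // σ i (x.1 i) ≠ x.1 i} := fun x => by
      rw [Fintype.card_fun, ZMod.card]
    simp only [this] at hcard
    exact_mod_cast hcard
  refine (h1.mono_cost ?_).mono_right ?_
  · refine le_trans ?_ (mul_le_mul_of_nonneg_right hcard' (by positivity))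
    rw [Finset.sum_mul]
    refine Finset.sum_le_sum fun x _ => ?_
    rw [mul_comm C, mul_assoc]
    refine mul_le_mul_of_nonneg_left (mul_le_mul_of_nonneg_left ?_ hC0) (by positivity)
    refine Real.rpow_le_rpow (by positivity) ?_ tau_pos.le
    have := Fintype.card_subtype_le (fun i => σ i (x.1 i) ≠ x.1 i)
    have : (Fintype.card {i // σ i (x.1 i) ≠ x.1 i} : ℝ) ≤ Fintype.card ι := by exact_mod_cast this
    linarith
  · rintro _ ⟨z, rfl⟩
    let x : R := ⟨fun i => if ρ i (z i) then z i else σ i (z i), fun i => by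
      by_cases h : ρ i (z i)
      · simp [h]
      · simpa [h] using (hρ1 i (z i)).resolve_left h⟩
    obtain ⟨y, hy⟩ := mem_range_orb σ x.1 z fun i => by
      by_cases h : ρ i (z i)
      · left; simp [x, h]
      · right; simp [x, h, hσ i (z i)]
    refine Set.mem_iUnion.2 ⟨x, y, ?_⟩
    rw [← act_tens_Sw hσ, hy]

theorem cost_tens {C : ℝ} (hC0 : 0 ≤ C) (hC : ∀ (K : Type) [Fintype K] [DecidableEq K],
      Cost V (Sm K) (C * 2 ^ Fintype.card K * ((Fintype.card K : ℝ) + 1) ^ tau))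
    (d : ℕ) (M : ∀ i, Matrix (J i) (J i) ℂ) (hM : ∀ i, Depth d (M i)) :
    Cost V (tens M) (Fintype.card (∀ i, J i) *
      ((d + 1) * (1 + C * ((Fintype.card ι : ℝ) + 1) ^ tau))) := by
  have hpos : 0 ≤ C * ((Fintype.card ι : ℝ) + 1) ^ tau := by positivity
  have hN : (0 : ℝ) ≤ Fintype.card (∀ i, J i) := Nat.cast_nonneg _
  induction d generalizing M with
  | zero =>
    refine (IsMon.tens hM).cost.mono ?_
    have := mul_nonneg hN hpos
    push_cast
    nlinarith
  | succ d ih =>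
    choose P σ M' hP hσ hM' h using hM
    have : M = fun i => P i * Sw (σ i) * M' i := funext h
    rw [this, tens_mul (fun i => P i * Sw (σ i)), tens_mul]
    refine (((IsMon.tens hP).cost.mul (cost_tens_Sw hC0 hC hσ)).mul (ih M' hM')).mono ?_
    push_cast
    exact le_of_eq (by ring)

end tens

end Vale.Agent.P344
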