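import Vale.Agent.P344.Depth

/-! Classical identities for Fourier matrices, and in place shallow circuits for them. -/

namespace Vale.Agent.P344

open Finset Matrix Kronecker

set_option linter.unusedSectionVars false

noncomputable def Fm (n : ℕ) (ω : ℂ) : Matrix (Fin n) (Fin n) ℂ :=
  fun j k => ω ^ ((j : ℕ) * (k : ℕ))

/-- The input ordering in the Cooley and Tukey factorization. -/
def ctIn (a b : ℕ) : Fin a × Fin b ≃ Fin (a * b) :=
  (Equiv.prodComm _ _).trans (finProdFinEquiv.trans (finCongr (Nat.mul_comm b a)))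

theorem cooley_tukey (a b : ℕ) (ω : ℂ) (hω : ω ^ (a * b) = 1) :
    Fm (a * b) ω = ((Fm a (ω ^ b) ⊗ₖ (1 : Matrix (Fin b) (Fin b) ℂ)) *
      diagonal (fun p : Fin a × Fin b => ω ^ ((p.1 : ℕ) * (p.2 : ℕ))) *
      ((1 : Matrix (Fin a) (Fin a) ℂ) ⊗ₖ Fm b (ω ^ a))).submatrix
        finProdFinEquiv.symm (ctIn a b).symm := by
  ext j k
  obtain ⟨⟨j₁, j₂⟩, rfl⟩ := finProdFinEquiv.surjective j
  obtain ⟨⟨k₁, k₂⟩, rfl⟩ := (ctIn a b).surjective k
  simp only [submatrix_apply, Equiv.symm_apply_apply]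
  rw [Matrix.mul_apply, Fintype.sum_prod_type]
  simp only [mul_diagonal, kroneckerMap_apply, Matrix.one_apply, mul_ite, mul_one, mul_zero,
    ite_mul, one_mul, zero_mul, Finset.sum_ite_irrel, Finset.sum_const_zero, Finset.sum_ite_eq,
    Finset.sum_ite_eq', Finset.mem_univ, if_true]
  simp only [Fm, ctIn, Equiv.trans_apply, Equiv.prodComm_apply, Prod.swap_prod_mk,
    finCongr_apply, Fin.val_cast, finProdFinEquiv_apply_val, ← pow_mul, ← pow_add]
  rw [show ((j₂ : ℕ) + b * j₁) * (k₁ + a * k₂)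
    = (b * (j₁ * k₁) + k₁ * j₂ + a * (j₂ * k₂)) + (a * b) * (j₁ * k₂) by ring, pow_add, pow_mul ω (a * b),
    hω, one_pow, mul_one]

theorem sum_zpow {n : ℕ} {ω : ℂ} (h : IsPrimitiveRoot ω n) (z : ℤ) :
    ∑ l : Fin n, ω ^ (z * (l : ℕ)) = if (n : ℤ) ∣ z then (n : ℂ) else 0 := by
  simp only [_root_.zpow_mul, zpow_natCast]
  split_ifs with hz
  · rw [(h.zpow_eq_one_iff_dvd z).2 hz]; simp
  · have h1 : ω ^ z ≠ 1 := fun h' => hz ((h.zpow_eq_one_iff_dvd z).1 h')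
    have h2 : (ω ^ z) ^ n = 1 := by
      rw [← zpow_natCast, ← _root_.zpow_mul, mul_comm, _root_.zpow_mul, zpow_natCast,
        h.pow_eq_one, _root_.one_zpow]
    rw [Fin.sum_univ_eq_sum_range (fun l => (ω ^ z) ^ l) n]
    have := geom_sum_mul (ω ^ z) n
    rw [h2, sub_self] at this
    exact (mul_eq_zero.1 this).resolve_right (sub_ne_zero.2 h1)

theorem Fm_diag_Fm {n : ℕ} {ω : ℂ} (hω : ω ≠ 0) (Δ : Fin n → ℂ) (j k : Fin n) :
    (Fm n ω⁻¹ * diagonal Δ * Fm n ω) j k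
      = ∑ l : Fin n, Δ l * ω ^ ((((k : ℕ) : ℤ) - ((j : ℕ) : ℤ)) * (l : ℕ)) := by
  rw [Matrix.mul_apply]
  refine Finset.sum_congr rfl fun l _ => ?_
  rw [mul_diagonal, Fm, Fm, sub_mul, zpow_sub₀ hω, inv_pow]
  norm_cast
  rw [mul_comm (l : ℕ) k]
  field_simp

theorem Fm_inv_mul {n : ℕ} {ω : ℂ} (h : IsPrimitiveRoot ω n) (hn : 0 < n) :
    (diagonal (fun _ => (n : ℂ)⁻¹) * Fm n ω⁻¹) * Fm n ω = 1 := by
  have hω : ω ≠ 0 := h.ne_zero hn.ne'
  have hn' : (n : ℂ) ≠ 0 := by exact_mod_cast hn.ne'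
  ext j k
  have := Fm_diag_Fm hω (fun _ => 1) j k
  rw [diagonal_one, Matrix.mul_one] at this
  rw [Matrix.mul_assoc, diagonal_mul, this]
  simp only [one_mul, sum_zpow h]
  by_cases hjk : j = k
  · subst hjk; simp [hn']
  · rw [if_neg, mul_zero, Matrix.one_apply_ne hjk]
    intro hd
    have h0 := Int.eq_zero_of_abs_lt_dvd hd (by
      have := j.2; have := k.2
      rw [abs_lt]; constructor <;> omega)
    exact hjk (Fin.ext (by omega))

theorem bluestein {q t : ℕ} (hqt : 2 * q ≤ t) (ht : 0 < t) {ω : ℂ} (h : IsPrimitiveRoot ω t)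
    {ζ : ℂ} (hζ : ζ ≠ 0) :
    ∃ (Δ : Fin t → ℂ) (p : ℕ → ℂ), ∀ j k : Fin t, (j : ℕ) < q → (k : ℕ) < q →
      p j * (Fm t ω⁻¹ * diagonal Δ * Fm t ω) j k * p k = ζ ^ ((j : ℕ) * (k : ℕ)) := by
  have hω : ω ≠ 0 := h.ne_zero ht.ne'
  have ht' : (t : ℂ) ≠ 0 := by exact_mod_cast ht.ne'
  obtain ⟨ψ, hψ⟩ := IsAlgClosed.exists_pow_nat_eq ζ (n := 2) (by norm_num)
  have hψ0 : ψ ≠ 0 := by rintro rfl; simp at hψ; exact hζ hψ.symm
  refine ⟨fun l => ∑ z ∈ Finset.Ioo (-(q : ℤ)) q, (t : ℂ)⁻¹ * ψ ^ (-(z ^ 2)) * ω ^ (z * (l : ℕ)),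
    fun j => ψ ^ (j ^ 2), fun j k hj hk => ?_⟩
  rw [Fm_diag_Fm hω]
  simp only [Finset.sum_mul, mul_assoc, ← zpow_add₀ hω, ← add_mul]
  rw [Finset.sum_comm]
  simp only [← Finset.mul_sum, ← Finset.sum_mul, sum_zpow h]
  rw [Finset.sum_eq_single (((j : ℕ) : ℤ) - ((k : ℕ) : ℤ))]
  · rw [if_pos (by simp), ← hψ, ← pow_mul]
    have e : ψ ^ (2 * ((j : ℕ) * (k : ℕ))) = ψ ^ ((j : ℕ) ^ 2) *
        ψ ^ (-((((j : ℕ) : ℤ) - ((k : ℕ) : ℤ)) ^ 2)) * ψ ^ ((k : ℕ) ^ 2) := by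
      rw [← zpow_natCast, ← zpow_natCast, ← zpow_natCast, ← zpow_add₀ hψ0, ← zpow_add₀ hψ0]
      congr 1
      push_cast
      ring
    rw [e]
    field_simp
  · intro z hz hne
    rw [if_neg, zero_mul, mul_zero]
    intro hd
    rw [Finset.mem_Ioo] at hz
    have h0 := Int.eq_zero_of_abs_lt_dvd hd (by rw [abs_lt]; constructor <;> omega)
    exact hne (by omega)
  · intro hn
    exfalso
    apply hn
    rw [Finset.mem_Ioo]
    constructor <;> omega

theorem depth_Fm_two : Depth 1 (Fm 2 (-1)) := by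
  have h := ((Depth.sw (σ := (Fin.rev : Fin 2 → Fin 2)) Fin.rev_involutive).mon_mul
    (IsMon.diagonal ![1 - Complex.I, (1 - Complex.I) * Complex.I])).mul
    (IsMon.diagonal ![1, Complex.I]).depth
  convert h using 1
  ext j k
  rw [mul_diagonal, diagonal_mul]
  fin_cases j <;> fin_cases k <;> simp [Fm, Sw, sk_zero, sk_one, Fin.rev] <;>
    ring_nf <;> simp [Complex.I_sq] <;> ring

theorem depth_Fm (l : ℕ) : ∀ (n : ℕ), n = 2 ^ l → ∀ ω : ℂ, IsPrimitiveRoot ω n →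
    Depth l (Fm n ω) := by
  induction l with
  | zero =>
    rintro n rfl ω _ k
    exact ⟨k, fun i hi => absurd (Fin.ext (by have := i.2; have := k.2; simp at *)) hi⟩
  | succ l ih =>
    intro n hn ω hω
    rw [pow_succ'] at hn
    subst hn
    rw [cooley_tukey 2 (2 ^ l) ω hω.pow_eq_one]
    have h1 : ω ^ 2 ^ l = -1 :=
      (hω.pow (by positivity) (mul_comm _ _)).eq_neg_one_of_two_right
    have h2 := ih _ rfl (ω ^ 2) (hω.pow (by positivity) rfl)
    rw [h1]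
    refine Depth.submatrix ?_ _ _
    have := ((depth_Fm_two.kron_one (J' := Fin (2 ^ l))).mul
      (IsMon.diagonal (fun p : Fin 2 × Fin (2 ^ l) => ω ^ ((p.1 : ℕ) * (p.2 : ℕ)))).depth).mul
      (h2.one_kron (J' := Fin 2))
    rwa [add_zero, add_comm] at this

section acc

variable {X Y : Type*} [Fintype X] [DecidableEq X] [Fintype Y] [DecidableEq Y]

/-- The in place update `y += A x` has depth at most `d`. -/
def Acc (d : ℕ) (A : Matrix Y X ℂ) : Prop :=
  Depth d (fromBlocks (1 : Matrix X X ℂ) 0 A (1 : Matrix Y Y ℂ))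

theorem Acc.mono {d e : ℕ} {A : Matrix Y X ℂ} (h : Acc d A) (hde : d ≤ e) : Acc e A :=
  Depth.mono h hde

theorem Acc.add {d e : ℕ} {A B : Matrix Y X ℂ} (h : Acc d A) (h' : Acc e B) :
    Acc (d + e) (A + B) := by
  have := Depth.mul h h'
  simpa [fromBlocks_multiply, Acc] using this

theorem Acc.zero : Acc 0 (0 : Matrix Y X ℂ) := by
  rw [Acc, fromBlocks_one]; exact IsMon.one

theorem Acc.sum {κ : Type*} (Z : Finset κ) {d : ℕ} (A : κ → Matrix Y X ℂ)
    (h : ∀ c, Acc d (A c)) : Acc (Z.card * d) (∑ c ∈ Z, A c) := by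
  classical
  induction Z using Finset.induction_on with
  | empty => simpa using Acc.zero
  | insert a Z ha ih =>
    rw [Finset.sum_insert ha, Finset.card_insert_of_notMem ha, add_mul, one_mul, add_comm _ d]
    exact (h a).add ih

theorem Acc.conj {d e : ℕ} {A : Matrix Y X ℂ} (h : Acc d A) {U U' : Matrix X X ℂ}
    {W W' : Matrix Y Y ℂ} (hU : Depth e U) (hU' : Depth e U') (hW : Depth e W) (hW' : Depth e W')
    (h1 : U' * U = 1) (h2 : W * W' = 1) : Acc (d + 4 * e) (W * A * U) := by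
  have := ((hU'.blocks hW).mul h).mul (hU.blocks hW')
  rw [show e + e + d + (e + e) = d + 4 * e by ring] at this
  simpa [fromBlocks_multiply, Acc, h1, h2] using this

theorem exists_split (p : X → ℂ) :
    ∃ p₁ p₂ : X → ℂ, (∀ x, p₁ x ≠ 0) ∧ (∀ x, p₂ x ≠ 0) ∧ p = p₁ + p₂ := by
  refine ⟨fun x => if p x = 0 then 1 else 2 * p x, fun x => if p x = 0 then -1 else -p x,
    fun x => ?_, fun x => ?_, ?_⟩
  · by_cases h : p x = 0 <;> simp [h]
  · by_cases h : p x = 0 <;> simp [h]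
  · funext x
    by_cases h : p x = 0
    · simp [h]
    · simp only [Pi.add_apply, if_neg h]; ring

theorem Acc.diag_mul {d : ℕ} {A : Matrix Y X ℂ} (h : Acc d A) (p : Y → ℂ) :
    Acc (2 * d) (diagonal p * A) := by
  have key : ∀ p : Y → ℂ, (∀ y, p y ≠ 0) → Acc d (diagonal p * A) := by
    intro p hp
    have := h.conj (e := 0) IsMon.one IsMon.one (IsMon.diagonal p)
      (IsMon.diagonal fun y => (p y)⁻¹) (Matrix.one_mul _)
      (by rw [diagonal_mul_diagonal, ← diagonal_one]; congr 1; funext y; field_simp [hp y])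
    simpa using this
  obtain ⟨p₁, p₂, h1, h2, rfl⟩ := exists_split p
  rw [two_mul, show diagonal (p₁ + p₂) = diagonal p₁ + diagonal p₂ from (diagonal_add _ _).symm,
    Matrix.add_mul]
  exact (key _ h1).add (key _ h2)

theorem Acc.mul_diag {d : ℕ} {A : Matrix Y X ℂ} (h : Acc d A) (p : X → ℂ) :
    Acc (2 * d) (A * diagonal p) := by
  have key : ∀ p : X → ℂ, (∀ y, p y ≠ 0) → Acc d (A * diagonal p) := by
    intro p hp
    have := h.conj (e := 0) (IsMon.diagonal p) (IsMon.diagonal fun y => (p y)⁻¹)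
      IsMon.one IsMon.one
      (by rw [diagonal_mul_diagonal, ← diagonal_one]; congr 1; funext y; field_simp [hp y])
      (Matrix.one_mul _)
    simpa using this
  obtain ⟨p₁, p₂, h1, h2, rfl⟩ := exists_split p
  rw [two_mul, show diagonal (p₁ + p₂) = diagonal p₁ + diagonal p₂ from (diagonal_add _ _).symm,
    Matrix.mul_add]
  exact (key _ h1).add (key _ h2)

theorem Acc.reindex {X' Y' : Type*} [Fintype X'] [DecidableEq X'] [Fintype Y'] [DecidableEq Y']
    {d : ℕ} {A : Matrix Y X ℂ} (h : Acc d A) (eY : Y' ≃ Y) (eX : X' ≃ X) :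
    Acc d (A.submatrix eY eX) := by
  have := Depth.reindex h (Equiv.sumCongr eX eY)
  unfold Acc
  convert this using 1
  ext (a | a) (b | b) <;> simp [Matrix.one_apply]

theorem Acc.extend {R R' : Type*} [Fintype R] [DecidableEq R] [Fintype R'] [DecidableEq R']
    {d : ℕ} {A : Matrix Y X ℂ} (h : Acc d A) :
    Acc d (fromBlocks A 0 0 0 : Matrix (Y ⊕ R') (X ⊕ R) ℂ) := by
  have := Depth.reindex (Depth.block_left (J' := R ⊕ R') h) (Equiv.sumSumSumComm X R Y R')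
  unfold Acc
  convert this using 1
  ext ((a | a) | (a | a)) ((b | b) | (b | b)) <;> simp [Matrix.one_apply]

theorem Sw_swap : Sw (Sum.swap : X ⊕ X → X ⊕ X)
    = fromBlocks (sk 0 • 1) (sk 1 • 1) (sk 1 • 1) (sk 0 • 1) := by
  ext (a | a) (b | b) <;> simp [Sw, Matrix.one_apply, eq_comm]

theorem IsMon.scal (a b : ℂ) :
    IsMon (fromBlocks (a • 1) 0 0 (b • 1) : Matrix (X ⊕ X) (X ⊕ X) ℂ) := by
  have := IsMon.diagonal (Sum.elim (fun _ : X => a) (fun _ : X => b))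
  rwa [← fromBlocks_diagonal, ← smul_one_eq_diagonal, ← smul_one_eq_diagonal] at this

theorem Acc.one : Acc 3 (1 : Matrix X X ℂ) := by
  have hs : Depth 1 (Sw (Sum.swap : X ⊕ X → X ⊕ X)) := Depth.sw Sum.swap_swap
  have h := ((((hs.mon_mul (IsMon.scal ((1 - Complex.I) ^ 3 / 8)
    ((1 - Complex.I) ^ 3 * Complex.I / 10))).mul (hs.mon_mul (IsMon.scal 3 (-1)))).mul
    (hs.mon_mul (IsMon.scal 1 (-2)))).mul (IsMon.scal 1 (-5 * Complex.I / 3)).depth)
  unfold Acc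
  convert h using 1
  rw [Sw_swap]
  simp only [fromBlocks_multiply, Matrix.smul_mul, Matrix.mul_smul, Matrix.one_mul,
    Matrix.mul_zero, Matrix.zero_mul, smul_zero, add_zero, zero_add, smul_smul, ← add_smul]
  rw [sk_zero, sk_one]
  have hI := Complex.I_mul_I
  congr 1
  · rw [← one_smul ℂ (1 : Matrix X X ℂ), smul_smul]; congr 1; grind
  · rw [← zero_smul ℂ (1 : Matrix X X ℂ)]; congr 1; grind
  · rw [← one_smul ℂ (1 : Matrix X X ℂ), smul_smul]; congr 1; grind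
  · rw [← one_smul ℂ (1 : Matrix X X ℂ), smul_smul]; congr 1; grind

end acc

end Vale.Agent.P344
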