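import Vale.Agent.P344.Axis

/-! The prime factor decomposition, the reduction of every length, and the final estimate. -/

namespace Vale.Agent.P344

open Finset Matrix Kronecker

set_option linter.unusedSectionVars false

variable {V : Type} [AddCommGroup V] [Module ℂ V]

theorem good_thomas {ι : Type} [Fintype ι] [DecidableEq ι] (q : ι → ℕ) (hq : ∀ i, 0 < q i)
    (hco : Pairwise fun i j => Nat.Coprime (q i) (q j)) {M : ℕ} (hM : M = ∏ i, q i) {ω : ℂ}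
    (hω : IsPrimitiveRoot ω M) :
    ∃ (e : Fin M ≃ ∀ i, Fin (q i)) (r : Fin M → ∀ i, Fin (q i)) (ζ : ι → ℂ),
      (∀ i, IsPrimitiveRoot (ζ i) (q i)) ∧
        Fm M ω = (tens fun i => Fm (q i) (ζ i)).submatrix r e := by
  have hM0 : 0 < M := by rw [hM]; exact Finset.prod_pos fun i _ => hq i
  let a : ι → ℕ := fun i => ∏ j ∈ univ.erase i, q j
  have ha : ∀ i, M = a i * q i := fun i => by
    rw [hM]; exact (Finset.prod_erase_mul _ _ (Finset.mem_univ i)).symm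
  let g : (∀ i, Fin (q i)) → Fin M := fun k => ⟨(∑ i, a i * k i) % M, Nat.mod_lt _ hM0⟩
  have hmod : ∀ (k : ∀ i, Fin (q i)) (i : ι), ∑ j, a j * k j ≡ a i * k i [MOD q i] := by
    intro k i
    rw [← Finset.add_sum_erase _ _ (Finset.mem_univ i)]
    refine (Nat.ModEq.add_left _ ((Nat.modEq_zero_iff_dvd).2 (Finset.dvd_sum fun j hj => ?_)))
    refine Dvd.dvd.mul_right (Finset.dvd_prod_of_mem _ ?_) _
    exact Finset.mem_erase.2 ⟨(Finset.mem_erase.1 hj).1.symm, Finset.mem_univ _⟩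
  have hg : Function.Injective g := by
    intro k k' h
    funext i
    have h1 : ∑ j, a j * k j ≡ ∑ j, a j * k' j [MOD M] := congrArg Fin.val h
    have h2 := h1.of_dvd (show q i ∣ M from ⟨a i, by rw [mul_comm]; exact ha i⟩)
    have h3 := ((hmod k i).symm.trans h2).trans (hmod k' i)
    have h4 : Nat.Coprime (q i) (a i) :=
      Nat.Coprime.prod_right fun j hj => hco (Finset.mem_erase.1 hj).1.symm
    exact Fin.ext ((h3.cancel_left_of_coprime h4).eq_of_lt_of_lt (k i).2 (k' i).2)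
  have hb : Function.Bijective g :=
    (Fintype.bijective_iff_injective_and_card g).2 ⟨hg, by simp [hM]⟩
  have hζ : ∀ i, IsPrimitiveRoot (ω ^ a i) (q i) := fun i => hω.pow hM0 (ha i)
  refine ⟨(Equiv.ofBijective g hb).symm, fun j i => ⟨j % q i, Nat.mod_lt _ (hq i)⟩,
    fun i => ω ^ a i, hζ, ?_⟩
  ext j k
  obtain ⟨k, rfl⟩ := (Equiv.ofBijective g hb).surjective k
  rw [submatrix_apply, Equiv.symm_apply_apply]
  simp only [Equiv.ofBijective_apply, tens, Fm, g]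
  rw [mul_comm, pow_mul, ← pow_eq_pow_mod _ hω.pow_eq_one, ← Finset.prod_pow_eq_pow_sum,
    ← Finset.prod_pow]
  refine Finset.prod_congr rfl fun i _ => ?_
  rw [pow_mul (ω ^ a i), ← pow_eq_pow_mod _ (hζ i).pow_eq_one, ← pow_mul, ← pow_mul, ← pow_mul]
  congr 1
  ring

theorem batch_cost {C : ℝ} (hC0 : 0 ≤ C) (hC : ∀ (K : Type) [Fintype K] [DecidableEq K],
      Cost V (Sm K) (C * 2 ^ Fintype.card K * ((Fintype.card K : ℝ) + 1) ^ tau))
    {ι : Type} [Fintype ι] [DecidableEq ι] (q : ι → ℕ) (hq : ∀ i, 0 < q i)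
    (hco : Pairwise fun i j => Nat.Coprime (q i) (q j)) {M : ℕ} (hM : M = ∏ i, q i) {ω : ℂ}
    (hω : IsPrimitiveRoot ω M) (b : ℕ) (hb : ∀ i, q i ≤ b) :
    CostF V (ι → Fin 4 ⊕ Fin 4) (Fm M ω) (8 ^ Fintype.card ι * M *
      (((64 * (6 + 4 * Nat.log 2 (4 * b)) : ℕ) + 1) *
        (1 + C * ((Fintype.card ι : ℝ) + 1) ^ tau))) := by
  obtain ⟨e, r, ζ, hζ, hF⟩ := good_thomas q hq hco hM hω
  have hd : ∀ i, Depth (64 * (6 + 4 * Nat.log 2 (4 * b)))
      ((1 : Matrix (Fin 4 ⊕ Fin 4) (Fin 4 ⊕ Fin 4) ℂ) ⊗ₖ Fm (q i) (ζ i)) := by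
    intro i
    obtain ⟨l, h1, h2⟩ := exists_pow_two (hq i)
    refine (depth_axis h1 h2 (hζ i)).mono ?_
    have : l ≤ Nat.log 2 (4 * b) :=
      Nat.le_log_of_pow_le (by norm_num) (h2.trans (Nat.mul_le_mul_left _ (hb i)))
    omega
  have h1 := (cost_tens hC0 hC _ _ hd).submatrix
    (Equiv.arrowProdEquivProdArrow ι (fun _ => Fin 4 ⊕ Fin 4) (fun i => Fin (q i))).symm
    (Equiv.arrowProdEquivProdArrow ι (fun _ => Fin 4 ⊕ Fin 4) (fun i => Fin (q i))).symm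
  have h2 : (tens fun i => (1 : Matrix (Fin 4 ⊕ Fin 4) (Fin 4 ⊕ Fin 4) ℂ) ⊗ₖ
      Fm (q i) (ζ i)).submatrix
      (Equiv.arrowProdEquivProdArrow ι (fun _ => Fin 4 ⊕ Fin 4) (fun i => Fin (q i))).symm
      (Equiv.arrowProdEquivProdArrow ι (fun _ => Fin 4 ⊕ Fin 4) (fun i => Fin (q i))).symm
      = (1 : Matrix (ι → Fin 4 ⊕ Fin 4) (ι → Fin 4 ⊕ Fin 4) ℂ) ⊗ₖ
        tens fun i => Fm (q i) (ζ i) := by
    ext ⟨c, x⟩ ⟨c', y⟩
    simp only [submatrix_apply, tens, kroneckerMap_apply, Equiv.arrowProdEquivProdArrow,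
      Equiv.coe_fn_symm_mk, Finset.prod_mul_distrib, Matrix.one_apply]
    congr 1
    by_cases h : c = c'
    · simp [h]
    · obtain ⟨i, hi⟩ := Function.ne_iff.1 h
      rw [if_neg h]
      exact Finset.prod_eq_zero (Finset.mem_univ i) (if_neg hi)
  rw [h2] at h1
  rw [hF]
  refine (h1.of_one_kron.submatrix r e).mono (le_of_eq ?_)
  congr 1
  simp [hM, Finset.prod_mul_distrib]

theorem square_cost {M : ℕ} {X : ℝ}
    (hX : ∀ ω, IsPrimitiveRoot ω M → CostF V (Fin M) (Fm M ω) X) (hM : 0 < M) {ω : ℂ}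
    (hω : IsPrimitiveRoot ω (M * M)) : Cost V (Fm (M * M) ω) (2 * X + M * M) := by
  rw [cooley_tukey M M ω hω.pow_eq_one]
  have h := hX _ (hω.pow (Nat.mul_pos hM hM) rfl)
  refine (((h.kron_one.mul (IsMon.diagonal _).cost).mul h.one_kron).submatrix _ _).mono
    (le_of_eq ?_)
  simp; ring

theorem dft_cost {n t : ℕ} (hn : 0 < n) (ht : 2 * n ≤ t) {X : ℝ}
    (hX : ∀ ω, IsPrimitiveRoot ω t → Cost V (Fm t ω) X) :
    Cost V (dft n) (2 * X + 2 * t + 2 * n) := by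
  have ht0 : 0 < t := by omega
  have hω := Complex.isPrimitiveRoot_exp t ht0.ne'
  set ω := Complex.exp (2 * Real.pi * Complex.I / t)
  obtain ⟨Δ, p, hp⟩ := bluestein ht ht0 hω
    (ζ := Complex.exp (2 * Real.pi * Complex.I / n)) (Complex.exp_ne_zero _)
  have hnt : n ≤ t := by omega
  have hE : IsMon ((1 : Matrix (Fin t) (Fin t) ℂ).submatrix (Equiv.refl _) (Fin.castLE hnt)) := by
    intro x
    by_cases h : (x : ℕ) < n
    · refine ⟨⟨x, h⟩, fun i hi => Matrix.one_apply_ne fun h' => hi (Fin.ext ?_)⟩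
      simpa using (congrArg Fin.val h').symm
    · refine ⟨⟨0, hn⟩, fun i _ => Matrix.one_apply_ne fun h' => h ?_⟩
      have : (x : ℕ) = i := by simpa using congrArg Fin.val h'
      rw [this]; exact i.2
  have h1 := (((hX _ hω.inv).mul (IsMon.diagonal Δ).cost).mul (hX _ hω)).submatrix
    (Fin.castLE hnt) (Equiv.refl _)
  have h2 := ((IsMon.diagonal fun j : Fin n => p j).cost.mul (h1.mul hE.cost)).mul
    (IsMon.diagonal fun j : Fin n => p j).cost
  rw [Matrix.submatrix_mul_equiv, Matrix.mul_one] at h2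
  convert h2 using 1
  · ext j k
    rw [mul_diagonal, diagonal_mul, submatrix_apply]
    exact (hp (Fin.castLE hnt j) (Fin.castLE hnt k) j.2 k.2).symm
  · simp; ring

theorem centralBinom_succ_bounds (m : ℕ) :
    2 * Nat.centralBinom m ≤ Nat.centralBinom (m + 1) ∧
      Nat.centralBinom (m + 1) ≤ 4 * Nat.centralBinom m := by
  have h := Nat.succ_mul_centralBinom_succ m
  constructor
  · refine Nat.le_of_mul_le_mul_left ?_ (Nat.succ_pos m)
    rw [h]; nlinarith [Nat.zero_le (Nat.centralBinom m)]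
  · refine Nat.le_of_mul_le_mul_left ?_ (Nat.succ_pos m)
    rw [h]; nlinarith [Nat.zero_le (Nat.centralBinom m)]

theorem two_pow_le_centralBinom (m : ℕ) : 2 ^ m ≤ Nat.centralBinom m := by
  induction m with
  | zero => simp
  | succ m ih => have := (centralBinom_succ_bounds m).1; rw [pow_succ]; omega

theorem exists_centralBinom {n : ℕ} (hn : 2 ≤ n) :
    ∃ m, 0 < m ∧ 2 * n ≤ Nat.centralBinom m * Nat.centralBinom m ∧
      Nat.centralBinom m * Nat.centralBinom m ≤ 32 * n := by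
  have hex : ∃ m, 2 * n ≤ Nat.centralBinom m * Nat.centralBinom m := by
    refine ⟨n, Nat.mul_le_mul ?_ ?_⟩
    · exact Nat.two_le_centralBinom n (by omega)
    · exact (Nat.lt_two_pow_self.le).trans (two_pow_le_centralBinom n)
  classical
  have h1 := Nat.find_spec hex
  rcases h : Nat.find hex with _ | m
  · rw [h] at h1; simp at h1; omega
  · rw [h] at h1
    have h2 := Nat.find_min hex (m := m) (by omega)
    have h3 := (centralBinom_succ_bounds m).2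
    refine ⟨m + 1, Nat.succ_pos m, h1, ?_⟩
    have := Nat.mul_le_mul h3 h3
    nlinarith

theorem eight_pow_le {M : ℕ} (hM : M ≠ 0) : 8 ^ M.primeFactors.card ≤ 8 ^ 8 * M := by
  rw [← Finset.card_filter_add_card_filter_not (s := M.primeFactors) (fun p => p < 8), pow_add]
  refine Nat.mul_le_mul (Nat.pow_le_pow_right (by norm_num) ?_) ?_
  · refine (Finset.card_le_card (t := Finset.range 8) fun p hp => ?_).trans (by simp)
    exact Finset.mem_range.2 (Finset.mem_filter.1 hp).2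
  · refine (Finset.pow_card_le_prod _ (fun p => p) 8 fun p hp => ?_).trans ?_
    · have := (Finset.mem_filter.1 hp).2; omega
    · refine Nat.le_of_dvd (Nat.pos_of_ne_zero hM) (Dvd.dvd.trans ?_ (Nat.prod_primeFactors_dvd M))
      exact Finset.prod_dvd_prod_of_subset _ _ _ (Finset.filter_subset _ _)

theorem centralBinom_cost {C : ℝ} (hC0 : 0 ≤ C) (hC : ∀ (K : Type) [Fintype K] [DecidableEq K],
      Cost V (Sm K) (C * 2 ^ Fintype.card K * ((Fintype.card K : ℝ) + 1) ^ tau))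
    {m : ℕ} (hm : 0 < m) {M : ℕ} (hM : M = Nat.centralBinom m) (ω : ℂ)
    (hω : IsPrimitiveRoot ω M) :
    CostF V (Fin M) (Fm M ω) ((1 + 8 ^ 8) * (M * M) *
      (((64 * (6 + 4 * Nat.log 2 (8 * m)) : ℕ) + 1) * (1 + C * (2 * (m : ℝ) + 1) ^ tau))) := by
  have hM0 : M ≠ 0 := by rw [hM]; exact Nat.centralBinom_ne_zero m
  have hb : ∀ p : ℕ, p ^ M.factorization p ≤ 2 * m := fun p => by
    rw [hM]; exact Nat.pow_factorization_choose_le (by omega)
  have h1 := batch_cost hC0 hC (fun p : M.primeFactors => (p : ℕ) ^ M.factorization p)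
    (fun p => pow_pos (Nat.prime_of_mem_primeFactors p.2).pos _)
    M.pairwise_coprime_pow_primeFactors_factorization
    (Nat.prod_primeFactors_coe_pow_factorization hM0) hω (2 * m) (fun p => hb p)
  rw [Fintype.card_coe, show 4 * (2 * m) = 8 * m by ring] at h1
  set k := M.primeFactors.card with hk
  have hk2 : k ≤ 2 * m := by
    refine (Finset.card_le_card (t := Finset.Icc 1 (2 * m)) fun p hp => ?_).trans (by simp)
    have hp' := Nat.prime_of_mem_primeFactors hp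
    refine Finset.mem_Icc.2 ⟨hp'.pos, le_trans (Nat.le_self_pow ?_ p) (hb p)⟩
    exact (hp'.factorization_pos_of_dvd hM0 (Nat.dvd_of_mem_primeFactors hp)).ne'
  have h8 : 8 ^ k ≤ 8 ^ 8 * M := eight_pow_le hM0
  have : Nonempty (Fin M) := ⟨⟨0, Nat.pos_of_ne_zero hM0⟩⟩
  have hcard : Fintype.card (M.primeFactors → Fin 4 ⊕ Fin 4) = 8 ^ k := by simp [hk]
  have hq1 : M ≤ (M / 8 ^ k + 1) * 8 ^ k := by
    rw [add_mul, one_mul]
    exact (Nat.lt_div_mul_add (by positivity)).le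
  have hq2 : (M / 8 ^ k + 1) * 8 ^ k ≤ (1 + 8 ^ 8) * M := by
    rw [add_mul, one_mul, add_mul, one_mul]
    exact Nat.add_le_add (Nat.div_mul_le_self _ _) h8
  generalize M / 8 ^ k + 1 = q at hq1 hq2
  refine (h1.batch (D' := Fin M) q (by rw [hcard, Fintype.card_fin]; exact hq1)).mono ?_
  have hq3 : (q : ℝ) * 8 ^ k ≤ (1 + 8 ^ 8) * M := by exact_mod_cast hq2
  have hk3 : (k : ℝ) + 1 ≤ 2 * m + 1 := by
    have : (k : ℝ) ≤ 2 * m := by exact_mod_cast hk2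
    linarith
  have h4 : ((k : ℝ) + 1) ^ tau ≤ (2 * (m : ℝ) + 1) ^ tau :=
    Real.rpow_le_rpow (by positivity) hk3 tau_pos.le
  rw [← mul_assoc, ← mul_assoc (q : ℝ), ← mul_assoc (1 + 8 ^ 8 : ℝ)]
  gcongr

theorem Y_bound {C : ℝ} (hC0 : 0 ≤ C) {m : ℕ} {x : ℝ} (hm : 0 < m) (hx : 1 ≤ x)
    (hmx : (m : ℝ) ≤ 3 * x) :
    (((64 * (6 + 4 * Nat.log 2 (8 * m)) : ℕ) : ℝ) + 1) * (1 + C * (2 * (m : ℝ) + 1) ^ tau)
      ≤ (385 + 256 * 48 * 10 ^ 8) * (1 + 7 * C) * x ^ (1 - 5 / 10 ^ 8 : ℝ) := by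
  have hx0 : 0 < x := by linarith
  have hm1 : (1 : ℝ) ≤ m := by exact_mod_cast hm
  have e1 : (1 : ℝ) ≤ x ^ (1 / 10 ^ 8 : ℝ) := Real.one_le_rpow hx (by norm_num)
  have e2 : (1 : ℝ) ≤ x ^ tau := Real.one_le_rpow hx tau_pos.le
  have h1 : (Nat.log 2 (8 * m) : ℝ) ≤ 48 * 10 ^ 8 * x ^ (1 / 10 ^ 8 : ℝ) := by
    have a1 := Real.natLog_le_logb (8 * m) 2
    have a2 : Real.log ((8 * m : ℕ) : ℝ) ≤ Real.log (24 * x) :=
      Real.log_le_log (by positivity) (by push_cast; linarith)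
    have a3 := Real.log_le_rpow_div (x := 24 * x) (ε := 1 / 10 ^ 8) (by positivity) (by norm_num)
    have a4 : (24 * x) ^ (1 / 10 ^ 8 : ℝ) ≤ 24 * x ^ (1 / 10 ^ 8 : ℝ) := by
      rw [Real.mul_rpow (by norm_num) hx0.le]
      refine mul_le_mul_of_nonneg_right ?_ (by positivity)
      exact (Real.rpow_le_rpow_of_exponent_le (by norm_num) (by norm_num)).trans
        (le_of_eq (Real.rpow_one 24))
    have a5 : (1 / 2 : ℝ) ≤ Real.log 2 := by have := Real.log_two_gt_d9; linarith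
    have a6 : 0 ≤ Real.log ((8 * m : ℕ) : ℝ) := Real.log_natCast_nonneg _
    have a7 : Real.logb (2 : ℕ) ((8 * m : ℕ) : ℝ) ≤ 2 * Real.log ((8 * m : ℕ) : ℝ) := by
      rw [Real.logb, Nat.cast_ofNat, div_le_iff₀ (by linarith)]
      nlinarith
    rw [div_div_eq_mul_div, div_one] at a3
    nlinarith
  have h2 : (2 * (m : ℝ) + 1) ^ tau ≤ 7 * x ^ tau := by
    refine (Real.rpow_le_rpow (by positivity) (show 2 * (m : ℝ) + 1 ≤ 7 * x by linarith)
      tau_pos.le).trans ?_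
    rw [Real.mul_rpow (by norm_num) hx0.le]
    refine mul_le_mul_of_nonneg_right ?_ (by positivity)
    exact (Real.rpow_le_rpow_of_exponent_le (by norm_num) (by unfold tau; norm_num)).trans
      (le_of_eq (Real.rpow_one 7))
  have h3 : (((64 * (6 + 4 * Nat.log 2 (8 * m)) : ℕ) : ℝ) + 1)
      ≤ (385 + 256 * 48 * 10 ^ 8) * x ^ (1 / 10 ^ 8 : ℝ) := by
    push_cast
    nlinarith
  have h4 : 1 + C * (2 * (m : ℝ) + 1) ^ tau ≤ (1 + 7 * C) * x ^ tau := by
    have := mul_le_mul_of_nonneg_left h2 hC0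
    nlinarith
  have h5 : x ^ (1 - 5 / 10 ^ 8 : ℝ) = x ^ (1 / 10 ^ 8 : ℝ) * x ^ tau := by
    rw [← Real.rpow_add hx0, tau]; congr 1; norm_num
  calc _ ≤ ((385 + 256 * 48 * 10 ^ 8) * x ^ (1 / 10 ^ 8 : ℝ)) * ((1 + 7 * C) * x ^ tau) :=
        mul_le_mul h3 h4 (by positivity) (by positivity)
    _ = _ := by rw [h5]; ring

theorem dft_bound : ∃ C : ℝ, ∀ n : ℕ, 2 ≤ n →
    Cost V (dft n) (C * n * Real.logb 2 n ^ (1 - 5 / 10 ^ 8 : ℝ)) := by
  obtain ⟨C, hC0, hC⟩ := Sm_cost (V := V)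
  obtain ⟨C₂, hC₂⟩ : ∃ C₂ : ℝ, C₂ = (385 + 256 * 48 * 10 ^ 8) * (1 + 7 * C) := ⟨_, rfl⟩
  have hC₂0 : 0 ≤ C₂ := by rw [hC₂]; positivity
  refine ⟨128 * (1 + 8 ^ 8) * C₂ + 130, fun n hn => ?_⟩
  obtain ⟨m, hm, h1, h2⟩ := exists_centralBinom hn
  obtain ⟨M, hM⟩ : ∃ M, M = Nat.centralBinom m := ⟨_, rfl⟩
  rw [← hM] at h1 h2
  have hM0 : 0 < M := by rw [hM]; exact Nat.centralBinom_pos m
  have h3 := dft_cost (V := V) (by omega) h1 fun ω hω =>
    square_cost (centralBinom_cost hC0 hC hm hM) hM0 hω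
  refine h3.mono ?_
  have hn2 : (2 : ℝ) ≤ n := by exact_mod_cast hn
  have hx : 1 ≤ Real.logb 2 n := by
    rw [Real.le_logb_iff_rpow_le (by norm_num) (by linarith)]; simpa using hn2
  have hmx : (m : ℝ) ≤ 3 * Real.logb 2 n := by
    have a1 : 2 ^ (2 * m) ≤ 32 * n := by
      have := two_pow_le_centralBinom m
      rw [← hM] at this
      rw [two_mul, pow_add]
      exact (Nat.mul_le_mul this this).trans h2
    have a2 : ((2 * m : ℕ) : ℝ) - 5 ≤ Real.logb 2 n := by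
      rw [Real.le_logb_iff_rpow_le (by norm_num) (by linarith), Real.rpow_sub (by norm_num),
        Real.rpow_natCast, div_le_iff₀ (by positivity)]
      have : (2 : ℝ) ^ (2 * m) ≤ 32 * n := by exact_mod_cast a1
      norm_num
      linarith
    push_cast at a2
    linarith
  have hY := Y_bound hC0 hm hx hmx
  rw [← hC₂] at hY
  have hz : (1 : ℝ) ≤ Real.logb 2 n ^ (1 - 5 / 10 ^ 8 : ℝ) := Real.one_le_rpow hx (by norm_num)
  have ht : (M : ℝ) * M ≤ 32 * n := by exact_mod_cast h2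
  generalize Real.logb 2 n ^ (1 - 5 / 10 ^ 8 : ℝ) = z at hY hz
  have hY0 : 0 ≤ (((64 * (6 + 4 * Nat.log 2 (8 * m)) : ℕ) : ℝ) + 1) *
      (1 + C * (2 * (m : ℝ) + 1) ^ tau) := by positivity
  generalize (((64 * (6 + 4 * Nat.log 2 (8 * m)) : ℕ) : ℝ) + 1) *
      (1 + C * (2 * (m : ℝ) + 1) ^ tau) = Y at hY hY0
  have h4 : (M : ℝ) * M * Y ≤ 32 * n * (C₂ * z) := mul_le_mul ht hY hY0 (by positivity)
  have h5 : (n : ℝ) ≤ n * z := le_mul_of_one_le_right (by linarith) hz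
  push_cast
  nlinarith

theorem circuit_bound : ∃ C : ℝ, ∀ n : ℕ, 2 ≤ n → ∃ c : Circuit n, c.Computes (dft n) ∧
    (c.gates.length : ℝ) ≤ C * n * Real.logb 2 n ^ (1 - 5 / 10 ^ 8 : ℝ) := by
  obtain ⟨C, hC⟩ := dft_bound (V := (ℕ → ℂ) → ℂ)
  exact ⟨C, fun n hn => (hC n hn).toCircuit⟩

theorem L_bound : ∃ C : ℝ, ∀ n : ℕ, 2 ≤ n →
    (L n : ℝ) ≤ C * n * Real.logb 2 n ^ (1 - 5 / 10 ^ 8 : ℝ) := by
  obtain ⟨C, hC⟩ := circuit_bound
  refine ⟨C, fun n hn => ?_⟩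
  obtain ⟨c, h1, h2⟩ := hC n hn
  refine le_trans ?_ h2
  have : L n ≤ c.gates.length := Nat.sInf_le ⟨c, h1, rfl⟩
  exact_mod_cast this

theorem not_lower : ¬ ∃ c : ℝ, 0 < c ∧ ∃ N : ℕ, ∀ n : ℕ, N ≤ n →
    c * n * Real.logb 2 n ≤ L n := by
  rintro ⟨c, hc, N, hN⟩
  obtain ⟨C, hC⟩ := L_bound
  have h1 : Filter.Tendsto (fun n : ℕ => Real.logb 2 n ^ (5 / 10 ^ 8 : ℝ)) Filter.atTop
      Filter.atTop :=
    (tendsto_rpow_atTop (by norm_num)).comp
      ((Real.tendsto_logb_atTop (by norm_num)).comp tendsto_natCast_atTop_atTop)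
  obtain ⟨n, hn1, hn2, hn3⟩ := ((h1.eventually_gt_atTop (C / c)).and
    ((Filter.eventually_ge_atTop N).and (Filter.eventually_ge_atTop 2))).exists
  have hn4 : (2 : ℝ) ≤ n := by exact_mod_cast hn3
  have hx : 0 < Real.logb 2 n := Real.logb_pos (by norm_num) (by linarith)
  have h2 := (hN n hn2).trans (hC n hn3)
  have h3 : Real.logb 2 n
      = Real.logb 2 n ^ (5 / 10 ^ 8 : ℝ) * Real.logb 2 n ^ (1 - 5 / 10 ^ 8 : ℝ) := by
    rw [← Real.rpow_add hx]; simp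
  have h4 : 0 < (n : ℝ) * Real.logb 2 n ^ (1 - 5 / 10 ^ 8 : ℝ) := by positivity
  rw [div_lt_iff₀ hc] at hn1
  have h5 := mul_lt_mul_of_pos_right hn1 h4
  nth_rewrite 1 [h3] at h2
  nlinarith

end Vale.Agent.P344
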