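import Vale.Agent.P344.Rank

/-! The finite network that exchanges two banks of vectors while saving transform calls. -/

namespace Vale.Agent.P344

open Finset Matrix Kronecker

set_option linter.unusedSectionVars false

variable {V : Type} [AddCommGroup V] [Module ℂ V]

/-- The abstract properties of the triple system that the network uses. -/
structure Design (H Tr : Type) [Fintype H] [DecidableEq H] [Fintype Tr] [DecidableEq Tr] where
  LL : Tr → Matrix H H F2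
  orth : Tr → Tr → Prop
  al : Tr → H → ℂ
  be : H → Tr → ℂ
  ee : Tr → Tr → ℂ
  ee_eq : ∀ S T, ee S T = (if S = T then 1 else 0) - ∑ i, al S i * be i T
  orth_of_ee : ∀ {S T}, ee S T ≠ 0 → orth S T
  card_H : Fintype.card H = 17
  card_Tr : Fintype.card Tr = 680
  rk_LL : ∀ S, Rk 1 (LL S)
  rk_one : Rk 17 (1 : Matrix H H F2)
  rk_one_LL : ∀ S, Rk 16 (1 + LL S)
  rk_one_LL_LL : ∀ {S T}, orth S T → Rk 15 (1 + LL S + LL T)

noncomputable def design17 : Design H17 Tr where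
  LL := LL
  orth := orth
  al := al
  be := be
  ee := ee
  ee_eq := fun _ _ => rfl
  orth_of_ee := orth_of_ee
  card_H := Fintype.card_fin 17
  card_Tr := card_Tr
  rk_LL := rk_LL
  rk_one := rk_one17
  rk_one_LL := rk_one_LL
  rk_one_LL_LL := rk_one_LL_LL

variable {H Tr : Type} [Fintype H] [DecidableEq H] [Fintype Tr] [DecidableEq Tr] (D : Design H Tr)

abbrev Design.Pr := {p : Tr × Tr // D.orth p.1 p.2}

noncomputable instance : Fintype D.Pr := Fintype.ofFinite _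

theorem Design.card_Pr : (Fintype.card D.Pr : ℝ) ≤ 462400 := by
  have := Fintype.card_le_of_injective (fun p : D.Pr => p.1) Subtype.val_injective
  rw [Fintype.card_prod, D.card_Tr] at this
  exact_mod_cast this

theorem Design.design_id {E : Type*} [AddCommGroup E] [Module ℂ E] (Y : Tr → E) (S : Tr) :
    ∑ T, D.ee S T • Y T + ∑ i, D.al S i • ∑ T, D.be i T • Y T = Y S := by
  simp only [D.ee_eq, sub_smul, Finset.sum_sub_distrib, Finset.smul_sum, Finset.sum_smul, mul_smul]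
  rw [Finset.sum_comm (f := fun i T => D.al S i • D.be i T • Y T)]
  simp [ite_smul]

section steps

variable {I K : Type*} [Fintype I] [DecidableEq I] [Fintype K] [DecidableEq K]

variable (I K) in
noncomputable def TT (c : ℝ) : ℝ := 2 ^ ((Fintype.card I - 1) * Fintype.card K) * c

variable (I K) in
noncomputable def NN : ℝ := 2 ^ (Fintype.card I * Fintype.card K)

theorem NN_nonneg : 0 ≤ NN I K := by unfold NN; positivity

theorem step_move {c : ℝ} (hc : Cost V (Sm K) c) {ι : Type*} [Fintype ι] {A₀ A : Set V} {s : ℝ}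
    (hA : Comp A₀ s A) (M M' : ι → Matrix I I F2) (v : ι → (I × K → F2) → V) (r : ℕ)
    (h : ∀ i, Has A (M i) (v i)) (hr : ∀ i, Rk r (M i + M' i)) :
    ∃ A', A ⊆ A' ∧ Comp A₀ (s + Fintype.card ι * (r * TT I K c)) A' ∧
      ∀ i, Has A' (M' i) (v i) := by
  choose B hB hh using fun i => (h i).move hc (hr i)
  refine ⟨A ∪ ⋃ i, B i, Set.subset_union_left, hA.trans' (Comp.iUnion B _ hB).keep, fun i => ?_⟩
  have := hh i
  rw [← add_assoc, mat_add_self, zero_add] at this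
  exact this.mono (Set.union_subset_union_right _ (Set.subset_iUnion B i))

theorem step_lin {ι κ : Type*} [Fintype ι] [Fintype κ] {A₀ A : Set V} {s : ℝ}
    (hA : Comp A₀ s A) (M : ι → Matrix I I F2) (c : ι → κ → ℂ) (v : ι → κ → (I × K → F2) → V)
    (h : ∀ i k, c i k ≠ 0 → Has A (M i) (v i k)) :
    ∃ A', A ⊆ A' ∧ Comp A₀ (s + Fintype.card ι * (2 * Fintype.card κ * NN I K)) A' ∧
      ∀ i, Has A' (M i) (∑ k, c i k • v i k) := by
  choose B hB hh using fun i => Has.lin (c i) (v i) (h i)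
  refine ⟨A ∪ ⋃ i, B i, Set.subset_union_left, hA.trans' (Comp.iUnion B _ hB).keep, fun i => ?_⟩
  exact (hh i).mono (Set.union_subset_union_right _ (Set.subset_iUnion B i))

theorem step_add {ι : Type*} [Fintype ι] {A₀ A : Set V} {s : ℝ}
    (hA : Comp A₀ s A) (M : ι → Matrix I I F2) (v w : ι → (I × K → F2) → V)
    (hv : ∀ i, Has A (M i) (v i)) (hw : ∀ i, Has A (M i) (w i)) :
    ∃ A', A ⊆ A' ∧ Comp A₀ (s + Fintype.card ι * (4 * NN I K)) A' ∧
      ∀ i, Has A' (M i) (v i + w i) := by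
  obtain ⟨A', h1, h2, h3⟩ := step_lin hA M (fun _ (_ : Bool) => (1 : ℂ))
    (fun i b => if b then v i else w i) (fun i b _ => by cases b <;> simp [hv i, hw i])
  refine ⟨A', h1, h2.mono_cost (le_of_eq ?_), fun i => by simpa using h3 i⟩
  rw [Fintype.card_bool]; push_cast; ring

theorem step_sub {ι : Type*} [Fintype ι] {A₀ A : Set V} {s : ℝ}
    (hA : Comp A₀ s A) (M : ι → Matrix I I F2) (v w : ι → (I × K → F2) → V)
    (hv : ∀ i, Has A (M i) (v i)) (hw : ∀ i, Has A (M i) (w i)) :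
    ∃ A', A ⊆ A' ∧ Comp A₀ (s + Fintype.card ι * (4 * NN I K)) A' ∧
      ∀ i, Has A' (M i) (v i - w i) := by
  obtain ⟨A', h1, h2, h3⟩ := step_lin hA M (fun _ (b : Bool) => if b then (1 : ℂ) else -1)
    (fun i b => if b then v i else w i) (fun i b _ => by cases b <;> simp [hv i, hw i])
  refine ⟨A', h1, h2.mono_cost (le_of_eq ?_), fun i => by simpa [sub_eq_add_neg] using h3 i⟩
  rw [Fintype.card_bool]; push_cast; ring

theorem rkA (T : Tr) : Rk 1 (0 + D.LL T) := by simpa using D.rk_LL T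
theorem rkB (S : Tr) : Rk 16 (D.LL S + 1) := by rw [add_comm]; exact D.rk_one_LL S
include D in
theorem rkC : Rk 17 ((1 : Matrix H H F2) + 0) := by simpa using D.rk_one
include D in
theorem rkC' : Rk 17 ((0 : Matrix H H F2) + 1) := by simpa using D.rk_one
theorem rkD (S : Tr) : Rk 16 (0 + (1 + D.LL S)) := by simpa using D.rk_one_LL S
theorem rkE {S T : Tr} (h : D.orth S T) : Rk 15 (D.LL T + (1 + D.LL S)) := by
  rw [add_comm]; exact D.rk_one_LL_LL h
theorem rkE' {S T : Tr} (h : D.orth S T) : Rk 15 (D.LL S + (1 + D.LL T)) := by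
  rw [← add_assoc, add_comm (D.LL S)]; exact D.rk_one_LL_LL h
theorem rkF (S : Tr) : Rk 1 ((1 + D.LL S) + 1) := by
  rw [add_comm 1, add_assoc, mat_add_self, add_zero]; exact D.rk_LL S

theorem stage_fwd {c : ℝ} (hc : Cost V (Sm K) c) {Γ : Type*} [Fintype Γ] {A₀ A : Set V} {s : ℝ}
    (hA : Comp A₀ s A) (lab : Γ → Matrix H H F2 → Matrix I I F2)
    (hlab : ∀ g a b r, Rk r (a + b) → Rk r (lab g a + lab g b))
    (X Y : Γ → Tr → (I × K → F2) → V) (Z : Γ → Tr → Tr → (I × K → F2) → V)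
    (hX : ∀ g S, Has A (lab g (D.LL S)) (X g S)) (hY : ∀ g S, Has A (lab g 0) (Y g S))
    (hZ : ∀ g (p : D.Pr), Has A (lab g 0) (Z g p.1.1 p.1.2)) :
    ∃ A', A ⊆ A' ∧ Comp A₀ (s + Fintype.card Γ *
        ((17 * Fintype.card D.Pr + 32 * 680 + 289) * TT I K c + 10 ^ 7 * NN I K)) A' ∧
      (∀ g S, Has A' (lab g 1) (X g S)) ∧ (∀ g S, Has A' (lab g (1 + D.LL S)) (Y g S + X g S)) ∧
      (∀ g (p : D.Pr), Has A' (lab g 1) (Z g p.1.1 p.1.2)) := by
  obtain ⟨A1, s1, c1, h1⟩ := step_lin hA (fun i : Γ × Tr => lab i.1 0)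
    (fun i T => D.ee i.2 T) (fun i T => Z i.1 i.2 T) (fun i T h => hZ i.1 ⟨(i.2, T), D.orth_of_ee h⟩)
  obtain ⟨A2, s2, c2, h2⟩ := step_move hc c1 (fun i : Γ × D.Pr => lab i.1 0)
    (fun i => lab i.1 (D.LL i.2.1.2)) (fun i => Z i.1 i.2.1.1 i.2.1.2) 1
    (fun i => (hZ i.1 i.2).mono s1) (fun i => hlab _ _ _ _ (rkA D _))
  have t2 := s1.trans s2
  obtain ⟨A3, s3, c3, h3⟩ := step_add c2 (fun i : Γ × D.Pr => lab i.1 (D.LL i.2.1.2))
    (fun i => Z i.1 i.2.1.1 i.2.1.2) (fun i => X i.1 i.2.1.2) h2 (fun i => (hX _ _).mono t2)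
  have t3 := t2.trans s3
  obtain ⟨A4, s4, c4, h4⟩ := step_move hc c3 (fun i : Γ × Tr => lab i.1 (D.LL i.2))
    (fun i => lab i.1 1) (fun i => X i.1 i.2) 16
    (fun i => (hX _ _).mono t3) (fun i => hlab _ _ _ _ (rkB D _))
  obtain ⟨A5, s5, c5, h5⟩ := step_lin c4 (fun i : Γ × H => lab i.1 1)
    (fun i T => D.be i.2 T) (fun i T => X i.1 T) (fun i T _ => h4 (i.1, T))
  obtain ⟨A6, s6, c6, h6⟩ := step_move hc c5 (fun i : Γ × H => lab i.1 1)
    (fun i => lab i.1 0) _ 17 h5 (fun i => hlab _ _ _ _ (rkC D))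
  obtain ⟨A7, s7, c7, h7⟩ := step_lin c6 (fun i : Γ × Tr => lab i.1 0)
    (fun i j => D.al i.2 j) (fun i j => ∑ T, D.be j T • X i.1 T) (fun i j _ => h6 (i.1, j))
  have u7 : A3 ⊆ A7 := s4.trans (s5.trans (s6.trans s7))
  obtain ⟨A8, s8, c8, h8⟩ := step_sub c7 (fun i : Γ × Tr => lab i.1 0)
    (fun i => Y i.1 i.2) _ (fun i => (hY _ _).mono (t3.trans u7))
    (fun i => (h1 i).mono (s2.trans (s3.trans u7)))
  obtain ⟨A9, s9, c9, h9⟩ := step_add c8 (fun i : Γ × Tr => lab i.1 0)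
    _ _ h8 (fun i => (h7 i).mono s8)
  obtain ⟨A10, s10, c10, h10⟩ := step_move hc c9 (fun i : Γ × Tr => lab i.1 0)
    (fun i => lab i.1 (1 + D.LL i.2)) _ 16 h9 (fun i => hlab _ _ _ _ (rkD D _))
  have u10 : A3 ⊆ A10 := u7.trans (s8.trans (s9.trans s10))
  obtain ⟨A11, s11, c11, h11⟩ := step_move hc c10 (fun i : Γ × D.Pr => lab i.1 (D.LL i.2.1.2))
    (fun i => lab i.1 (1 + D.LL i.2.1.1)) _ 15 (fun i => (h3 i).mono u10)
    (fun i => hlab _ _ _ _ (rkE D i.2.2))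
  obtain ⟨A12, s12, c12, h12⟩ := step_lin c11 (fun i : Γ × Tr => lab i.1 (1 + D.LL i.2))
    (fun i T => D.ee i.2 T) (fun i T => Z i.1 i.2 T + X i.1 T)
    (fun i T h => h11 (i.1, ⟨(i.2, T), D.orth_of_ee h⟩))
  obtain ⟨A13, s13, c13, h13⟩ := step_add c12 (fun i : Γ × Tr => lab i.1 (1 + D.LL i.2))
    _ _ (fun i => (h10 i).mono (s11.trans s12)) h12
  obtain ⟨A14, s14, c14, h14⟩ := step_move hc c13 (fun i : Γ × D.Pr => lab i.1 (1 + D.LL i.2.1.1))
    (fun i => lab i.1 1) _ 1 (fun i => (h11 i).mono (s12.trans s13))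
    (fun i => hlab _ _ _ _ (rkF D _))
  have u14 : A4 ⊆ A14 := s5.trans (s6.trans (s7.trans (s8.trans (s9.trans (s10.trans
    (s11.trans (s12.trans (s13.trans s14))))))))
  obtain ⟨A15, s15, c15, h15⟩ := step_sub c14 (fun i : Γ × D.Pr => lab i.1 1)
    _ (fun i => X i.1 i.2.1.2) h14 (fun i => (h4 (i.1, i.2.1.2)).mono u14)
  refine ⟨A15, t3.trans (s4.trans (u14.trans s15)), c15.mono_cost ?_,
    fun g S => (h4 (g, S)).mono (u14.trans s15), fun g S => ?_, fun g p => ?_⟩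
  · have hP := D.card_Pr
    have hN : 0 ≤ (Fintype.card Γ : ℝ) * NN I K := mul_nonneg (Nat.cast_nonneg _) NN_nonneg
    have h := mul_le_mul_of_nonneg_left hP hN
    simp only [Fintype.card_prod, D.card_Tr, D.card_H]
    push_cast
    nlinarith
  · have := (h13 (g, S)).mono (s14.trans s15)
    convert this using 1
    simp only [smul_add, Finset.sum_add_distrib]
    rw [← D.design_id (X g) S]
    abel
  · simpa using h15 (g, p)

theorem stage_rev {c : ℝ} (hc : Cost V (Sm K) c) {Γ : Type*} [Fintype Γ] {A₀ A : Set V} {s : ℝ}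
    (hA : Comp A₀ s A) (lab : Γ → Matrix H H F2 → Matrix I I F2)
    (hlab : ∀ g a b r, Rk r (a + b) → Rk r (lab g a + lab g b))
    (X Y : Γ → Tr → (I × K → F2) → V) (Z : Γ → Tr → Tr → (I × K → F2) → V)
    (hX : ∀ g S, Has A (lab g (D.LL S)) (X g S)) (hY : ∀ g S, Has A (lab g 0) (Y g S))
    (hZ : ∀ g (p : D.Pr), Has A (lab g 0) (Z g p.1.1 p.1.2)) :
    ∃ A', A ⊆ A' ∧ Comp A₀ (s + Fintype.card Γ *
        ((17 * Fintype.card D.Pr + 32 * 680 + 289) * TT I K c + 10 ^ 7 * NN I K)) A' ∧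
      (∀ g S, Has A' (lab g 1) (Y g S - X g S)) ∧ (∀ g S, Has A' (lab g (1 + D.LL S)) (Y g S)) ∧
      (∀ g (p : D.Pr), Has A' (lab g 1) (Z g p.1.1 p.1.2)) := by
  obtain ⟨A1, s1, c1, h1⟩ := step_add hA (fun i : Γ × D.Pr => lab i.1 0)
    (fun i => Z i.1 i.2.1.1 i.2.1.2) (fun i => Y i.1 i.2.1.2) (fun i => hZ _ _) (fun i => hY _ _)
  obtain ⟨A2, s2, c2, h2⟩ := step_lin c1 (fun i : Γ × H => lab i.1 0)
    (fun i T => D.be i.2 T) (fun i T => Y i.1 T) (fun i T _ => (hY _ _).mono s1)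
  obtain ⟨A3, s3, c3, h3⟩ := step_move hc c2 (fun i : Γ × H => lab i.1 0)
    (fun i => lab i.1 1) _ 17 h2 (fun i => hlab _ _ _ _ (rkC' D))
  obtain ⟨A4, s4, c4, h4⟩ := step_move hc c3 (fun i : Γ × D.Pr => lab i.1 0)
    (fun i => lab i.1 (D.LL i.2.1.1)) _ 1 (fun i => (h1 i).mono (s2.trans s3))
    (fun i => hlab _ _ _ _ (rkA D _))
  obtain ⟨A5, s5, c5, h5⟩ := step_lin c4 (fun i : Γ × Tr => lab i.1 (D.LL i.2))
    (fun i T => D.ee i.2 T) (fun i T => Z i.1 i.2 T + Y i.1 T)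
    (fun i T h => h4 (i.1, ⟨(i.2, T), D.orth_of_ee h⟩))
  have t5 : A ⊆ A5 := s1.trans (s2.trans (s3.trans (s4.trans s5)))
  obtain ⟨A6, s6, c6, h6⟩ := step_sub c5 (fun i : Γ × Tr => lab i.1 (D.LL i.2))
    _ (fun i => X i.1 i.2) h5 (fun i => (hX _ _).mono t5)
  obtain ⟨A7, s7, c7, h7⟩ := step_move hc c6 (fun i : Γ × Tr => lab i.1 (D.LL i.2))
    (fun i => lab i.1 1) _ 16 h6 (fun i => hlab _ _ _ _ (rkB D _))
  obtain ⟨A8, s8, c8, h8⟩ := step_move hc c7 (fun i : Γ × D.Pr => lab i.1 (D.LL i.2.1.1))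
    (fun i => lab i.1 (1 + D.LL i.2.1.2)) _ 15 (fun i => (h4 i).mono (s5.trans (s6.trans s7)))
    (fun i => hlab _ _ _ _ (rkE' D i.2.2))
  have t8 : A ⊆ A8 := t5.trans (s6.trans (s7.trans s8))
  obtain ⟨A9, s9, c9, h9⟩ := step_move hc c8 (fun i : Γ × Tr => lab i.1 0)
    (fun i => lab i.1 (1 + D.LL i.2)) (fun i => Y i.1 i.2) 16 (fun i => (hY _ _).mono t8)
    (fun i => hlab _ _ _ _ (rkD D _))
  obtain ⟨A10, s10, c10, h10⟩ := step_sub c9 (fun i : Γ × D.Pr => lab i.1 (1 + D.LL i.2.1.2))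
    _ (fun i => Y i.1 i.2.1.2) (fun i => (h8 i).mono s9) (fun i => h9 (i.1, i.2.1.2))
  obtain ⟨A11, s11, c11, h11⟩ := step_move hc c10 (fun i : Γ × D.Pr => lab i.1 (1 + D.LL i.2.1.2))
    (fun i => lab i.1 1) (fun i => Z i.1 i.2.1.1 i.2.1.2) 1 (fun i => by simpa using h10 i)
    (fun i => hlab _ _ _ _ (rkF D _))
  obtain ⟨A12, s12, c12, h12⟩ := step_lin c11 (fun i : Γ × Tr => lab i.1 1)
    (fun i T => D.ee i.2 T) (fun i T => Z i.1 i.2 T)
    (fun i T h => h11 (i.1, ⟨(i.2, T), D.orth_of_ee h⟩))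
  have u12 : A7 ⊆ A12 := s8.trans (s9.trans (s10.trans (s11.trans s12)))
  obtain ⟨A13, s13, c13, h13⟩ := step_lin c12 (fun i : Γ × Tr => lab i.1 1)
    (fun i j => D.al i.2 j) (fun i j => ∑ T, D.be j T • Y i.1 T)
    (fun i j _ => (h3 (i.1, j)).mono (s4.trans (s5.trans (s6.trans (s7.trans u12)))))
  obtain ⟨A14, s14, c14, h14⟩ := step_sub c13 (fun i : Γ × Tr => lab i.1 1)
    _ _ (fun i => (h7 i).mono (u12.trans s13)) (fun i => (h12 i).mono s13)
  obtain ⟨A15, s15, c15, h15⟩ := step_add c14 (fun i : Γ × Tr => lab i.1 1)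
    _ _ h14 (fun i => (h13 i).mono s14)
  have u15 : A11 ⊆ A15 := s12.trans (s13.trans (s14.trans s15))
  refine ⟨A15, t8.trans (s9.trans (s10.trans (s11.trans u15))), c15.mono_cost ?_,
    fun g S => ?_, fun g S => (h9 (g, S)).mono (s10.trans (s11.trans u15)),
    fun g p => (h11 (g, p)).mono u15⟩
  · have hP := D.card_Pr
    have hN : 0 ≤ (Fintype.card Γ : ℝ) * NN I K := mul_nonneg (Nat.cast_nonneg _) NN_nonneg
    have h := mul_le_mul_of_nonneg_left hP hN
    simp only [Fintype.card_prod, D.card_Tr, D.card_H]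
    push_cast
    nlinarith
  · have := h15 (g, S)
    convert this using 1
    simp only [smul_add, Finset.sum_add_distrib]
    conv_lhs => rw [← D.design_id (Y g) S]
    abel

theorem Rk.exists_QP {r : ℕ} {M : Matrix I I F2} (h : Rk r M) :
    ∃ μ : (I × K → F2) → ℂ, QP M μ := by
  induction h with
  | zero r => exact ⟨_, QP.one⟩
  | step r u M _ ih =>
    obtain ⟨μ, hμ⟩ := ih
    exact ⟨_, hμ.mul (QP.sq u)⟩

theorem Has.out {A : Set V} {M : Matrix I I F2} {μ : (I × K → F2) → ℂ} (hμ : QP M μ)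
    {v w : (I × K → F2) → V} (hv : phys μ v = w) (h : Has A (1 + M) v) (k : I × K → F2) :
    act (Sm (I × K)) w k ∈ A := by
  have := h _ (QP.full.mul hμ) k
  rw [phys_om, hv] at this
  rw [act_Sm]
  convert this using 4 with y
  funext p
  simp [Finset.sum_apply, Pi.single_apply]

end steps

abbrev Design.Wires := (Tr × Tr) ⊕ (Tr × Tr) ⊕ (Tr × D.Pr) ⊕ (Tr × D.Pr)

theorem network {K : Type*} [Fintype K] [DecidableEq K] {c : ℝ} (hc : Cost V (Sm K) c) :
    CostF V D.Wires (Sm ((H × H) × K))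
      ((Fintype.card D.Wires * 289 - 102 * 680) * TT (H × H) K c
        + 10 ^ 11 * NN (H × H) K) := by
  intro A x hx
  have : ∀ S T, Decidable (D.orth S T) := fun _ _ => Classical.dec _
  choose μ hq using fun a : Tr × Tr => ((D.rk_LL a.1).kron (D.rk_LL a.2)).exists_QP (K := K)
  choose X hX using fun a : Tr × Tr => phys_surj _ (hq a).ne_zero (x (Sum.inl a))
  choose Y hY using fun a : Tr × Tr =>
    phys_surj (fun _ => (1 : ℂ)) (fun _ => one_ne_zero) (x (Sum.inr (Sum.inl a)))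
  choose Z hZ using fun (g S T : Tr) =>
    phys_surj (fun _ => (1 : ℂ)) (fun _ => one_ne_zero)
      (if h : D.orth S T then x (Sum.inr (Sum.inr (Sum.inl (g, ⟨(S, T), h⟩)))) else 0)
  choose Z' hZ' using fun (g S T : Tr) =>
    phys_surj (fun _ => (1 : ℂ)) (fun _ => one_ne_zero)
      (if h : D.orth S T then x (Sum.inr (Sum.inr (Sum.inr (g, ⟨(S, T), h⟩)))) else 0)
  have hZ1 : ∀ (g : Tr) (p : D.Pr), phys (fun _ => (1 : ℂ)) (Z g p.1.1 p.1.2)
      = x (Sum.inr (Sum.inr (Sum.inl (g, p)))) := fun g p => by rw [hZ, dif_pos p.2]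
  have hZ2 : ∀ (g : Tr) (p : D.Pr), phys (fun _ => (1 : ℂ)) (Z' g p.1.1 p.1.2)
      = x (Sum.inr (Sum.inr (Sum.inr (g, p)))) := fun g p => by rw [hZ', dif_pos p.2]
  have c0 : Comp A 0 A := Comp.of_subset le_rfl le_rfl
  obtain ⟨A1, s1, c1, h1X, h1Y, h1Z⟩ := stage_fwd D hc c0 (fun (g : Tr) n => n ⊗ₖ D.LL g)
    (fun g a b r h => by
      rw [← add_kronecker]
      simpa using h.kron (D.rk_LL g))
    (fun g S => X (S, g)) (fun g S => Y (S, g)) Z
    (fun g S => Has.of_one (hq (S, g)) fun k => by rw [hX]; exact hx _ _)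
    (fun g S => by
      rw [zero_kronecker]
      exact Has.of_one QP.one fun k => by rw [hY]; exact hx _ _)
    (fun g p => by
      rw [zero_kronecker]
      exact Has.of_one QP.one fun k => by rw [hZ1]; exact hx _ _)
  let lab : Tr → Matrix H H F2 → Matrix (H × H) (H × H) F2 :=
    fun g n => (1 + D.LL g) ⊗ₖ (1 : Matrix H H F2) + D.LL g ⊗ₖ n
  obtain ⟨A2, s2, c2, h2⟩ := step_move hc c1
    (fun a : Tr × Tr => (1 : Matrix H H F2) ⊗ₖ D.LL a.2) (fun a => lab a.1 (D.LL a.2))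
    (fun a => X a) (16 * 16) (fun a => h1X a.2 a.1) (fun a => by
      convert (D.rk_one_LL a.1).kron (D.rk_one_LL a.2) using 1
      simp only [lab, add_kronecker, kronecker_add]
      abel)
  obtain ⟨A3, s3, c3, h3⟩ := step_move hc c2
    (fun a : Tr × Tr => (1 + D.LL a.1) ⊗ₖ D.LL a.2) (fun a => lab a.1 0)
    (fun a => Y a + X a) (16 * 16) (fun a => (h1Y a.2 a.1).mono s2) (fun a => by
      convert (D.rk_one_LL a.1).kron (D.rk_one_LL a.2) using 1
      simp only [lab, add_kronecker, kronecker_add, kronecker_zero]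
      abel)
  obtain ⟨A4, s4, c4, h4⟩ := step_move hc c3
    (fun a : Tr × D.Pr => (1 : Matrix H H F2) ⊗ₖ D.LL a.1) (fun _ => 1 + 0)
    (fun a => Z a.1 a.2.1.1 a.2.1.2) (17 * 16) (fun a => (h1Z a.1 a.2).mono (s2.trans s3))
    (fun a => by
      convert D.rk_one.kron (D.rk_one_LL a.1) using 1
      simp only [kronecker_add, one_kronecker_one]
      abel)
  obtain ⟨A5, s5, c5, h5⟩ := step_move hc c4
    (fun _ : Tr × D.Pr => (0 : Matrix (H × H) (H × H) F2)) (fun a => lab a.1 0)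
    (fun a => Z' a.1 a.2.1.1 a.2.1.2) (16 * 17)
    (fun a => Has.of_one QP.one fun k => by
      rw [hZ2]; exact s4 (s3 (s2 (s1 (hx _ _)))))
    (fun a => by
      convert (D.rk_one_LL a.1).kron D.rk_one using 1
      simp only [lab, kronecker_zero, zero_add, add_zero])
  obtain ⟨A6, s6, c6, h6X, h6Y, h6Z⟩ := stage_rev D hc c5 lab
    (fun g a b r h => by
      have := (D.rk_LL g).kron h
      rw [one_mul] at this
      convert this using 1
      simp only [lab, kronecker_add]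
      rw [add_add_add_comm, mat_add_self, zero_add])
    (fun g S => X (g, S)) (fun g S => Y (g, S) + X (g, S)) Z'
    (fun g S => (h2 (g, S)).mono (s3.trans (s4.trans s5)))
    (fun g S => (h3 (g, S)).mono (s4.trans s5))
    (fun g p => h5 (g, p))
  have e1 : ∀ g, lab g 1 = 1 + 0 := fun g => by
    simp only [lab, add_kronecker, one_kronecker_one]
    rw [add_assoc, mat_add_self]
  have e2 : ∀ g S, lab g (1 + D.LL S) = 1 + D.LL g ⊗ₖ D.LL S := fun g S => by
    simp only [lab, add_kronecker, kronecker_add, one_kronecker_one]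
    rw [add_assoc, ← add_assoc (D.LL g ⊗ₖ 1), mat_add_self, zero_add]
  have h6Y' : ∀ a : Tr × Tr, Has A6 (1 + 0) (Y a) := fun a => by
    have := h6X a.1 a.2
    rw [e1] at this
    simpa using this
  obtain ⟨A7, s7, c7, h7⟩ := step_move hc c6
    (fun _ : Tr × Tr => (1 + 0 : Matrix (H × H) (H × H) F2))
    (fun a => 1 + D.LL a.1 ⊗ₖ D.LL a.2) (fun a => Y a) (1 * 1) h6Y' (fun a => by
      convert (D.rk_LL a.1).kron (D.rk_LL a.2) using 1
      rw [add_add_add_comm, mat_add_self, zero_add, zero_add])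
  obtain ⟨A8, s8, c8, h8⟩ := step_sub c7
    (fun a : Tr × Tr => 1 + D.LL a.1 ⊗ₖ D.LL a.2) (fun a => Y a + X a) (fun a => Y a)
    (fun a => by
      have := (h6Y a.1 a.2).mono s7
      rwa [e2] at this) h7
  refine (c8.mono_cost ?_).mono_right ?_
  · have hN : 0 ≤ NN (H × H) K := NN_nonneg
    simp only [Fintype.card_prod, Fintype.card_sum, D.card_Tr]
    push_cast
    nlinarith
  · rintro _ ⟨w, k, rfl⟩
    rcases w with a | a | a | a
    · exact Has.out (hq a) (hX a) (by simpa using h8 a) k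
    · exact Has.out QP.one (hY a) ((h6Y' a).mono (s7.trans s8)) k
    · exact Has.out QP.one (hZ1 a.1 a.2) ((h4 a).mono (s5.trans (s6.trans (s7.trans s8)))) k
    · exact Has.out QP.one (hZ2 a.1 a.2) (by
        have := (h6Z a.1 a.2).mono (s7.trans s8)
        rwa [e1] at this) k

end Vale.Agent.P344
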