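import Vale.Agent.P344.Walsh

/-! Rank one decompositions over the binary field, and the triple system on seventeen points. -/

namespace Vale.Agent.P344

open Finset Matrix Kronecker

set_option linter.unusedSectionVars false

section general

variable {I I' : Type*} [Fintype I] [DecidableEq I] [Fintype I'] [DecidableEq I']

theorem Rk.succ {r : ℕ} {M : Matrix I I F2} (h : Rk r M) : Rk (r + 1) M := by
  simpa using Rk.step r 0 M h

theorem Rk.mono {r r' : ℕ} {M : Matrix I I F2} (h : Rk r M) (hr : r ≤ r') : Rk r' M := by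
  induction hr with
  | refl => exact h
  | step _ ih => exact ih.succ

theorem Rk.sq (u : I → F2) : Rk 1 (vecMulVec u u) := by
  simpa using Rk.step 0 u 0 (Rk.zero 0)

theorem Rk.add {r r' : ℕ} {M N : Matrix I I F2} (h : Rk r M) (h' : Rk r' N) :
    Rk (r + r') (M + N) := by
  induction h' with
  | zero r' => simpa using h.mono (Nat.le_add_right _ _)
  | step r' u N _ ih => rw [← add_assoc, ← add_assoc]; exact Rk.step _ u _ ih

theorem Rk.sum {ι : Type*} (Z : Finset ι) (u : ι → I → F2) :
    Rk Z.card (∑ i ∈ Z, vecMulVec (u i) (u i)) := by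
  classical
  induction Z using Finset.induction_on with
  | empty => simpa using Rk.zero 0
  | insert a Z ha ih =>
    rw [Finset.sum_insert ha, Finset.card_insert_of_notMem ha, add_comm (vecMulVec _ _)]
    exact Rk.step _ _ _ ih

theorem sq_kron_sq (u : I → F2) (w : I' → F2) :
    vecMulVec u u ⊗ₖ vecMulVec w w
      = vecMulVec (fun p : I × I' => u p.1 * w p.2) (fun p : I × I' => u p.1 * w p.2) := by
  ext ⟨a, b⟩ ⟨c, d⟩
  simp only [kroneckerMap_apply, vecMulVec_apply]
  ring

theorem Rk.sq_kron (u : I → F2) {r' : ℕ} {N : Matrix I' I' F2} (h' : Rk r' N) :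
    Rk r' (vecMulVec u u ⊗ₖ N) := by
  induction h' with
  | zero r' => simpa using Rk.zero r'
  | step r' w N _ ih => rw [kronecker_add, sq_kron_sq]; exact Rk.step _ _ _ ih

theorem Rk.kron {r r' : ℕ} {M : Matrix I I F2} {N : Matrix I' I' F2} (h : Rk r M)
    (h' : Rk r' N) : Rk (r * r') (M ⊗ₖ N) := by
  induction h with
  | zero r => simpa using Rk.zero _
  | step r u M _ ih => rw [add_kronecker, add_mul, one_mul]; exact ih.add (h'.sq_kron u)

def ind (S : Finset I) : I → F2 := fun i => if i ∈ S then 1 else 0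

def sqS (S : Finset I) : Matrix I I F2 := vecMulVec (ind S) (ind S)

def Dg (Z : Finset I) : Matrix I I F2 := ∑ i ∈ Z, vecMulVec (Pi.single i 1) (Pi.single i 1)

theorem Dg_apply (Z : Finset I) (i j : I) : Dg Z i j = if i = j ∧ i ∈ Z then 1 else 0 := by
  simp only [Dg, Matrix.sum_apply, vecMulVec_apply, Pi.single_apply, mul_ite, mul_one, mul_zero]
  rw [Finset.sum_ite_eq]
  by_cases h : i = j
  · subst h; simp
  · simp [h]

theorem Dg_univ : Dg (univ : Finset I) = 1 := by
  ext i j
  simp [Dg_apply, Matrix.one_apply]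

theorem Rk.Dg (Z : Finset I) : Rk Z.card (Dg Z) := Rk.sum Z _

theorem Dg_union {Z Z' : Finset I} (h : Disjoint Z Z') : Dg (Z ∪ Z') = Dg Z + Dg Z' :=
  Finset.sum_union h

theorem one_eq_Dg (Z : Finset I) : (1 : Matrix I I F2) = Dg Zᶜ + Dg Z := by
  rw [← Dg_union disjoint_compl_left, ← Dg_univ]
  congr 1
  ext; simp; tauto

theorem four_sum {Z : Finset I} (hZ : Z.card = 4) : ∑ z ∈ Z, sqS (Z.erase z) = Dg Z := by
  ext i j
  rw [Dg_apply, Matrix.sum_apply]
  by_cases hi : i ∈ Z
  · by_cases hj : j ∈ Z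
    · have h1 : ∀ z ∈ Z, sqS (Z.erase z) i j = if z ∈ (Z.erase i).erase j then 1 else 0 := by
        intro z hz
        simp only [sqS, vecMulVec_apply, ind, Finset.mem_erase, hi, hj, hz, and_true]
        by_cases h1 : i = z <;> by_cases h2 : j = z <;> simp [h1, h2, eq_comm]
      rw [Finset.sum_congr rfl h1, Finset.sum_ite_mem, Finset.sum_const,
        Finset.inter_eq_right.2 ((Finset.erase_subset _ _).trans (Finset.erase_subset _ _))]
      by_cases hij : i = j
      · subst hij
        rw [Finset.erase_idem, Finset.card_erase_of_mem hi, hZ, if_pos ⟨rfl, hi⟩]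
        decide
      · rw [Finset.card_erase_of_mem (Finset.mem_erase.2 ⟨Ne.symm hij, hj⟩),
          Finset.card_erase_of_mem hi, hZ, if_neg (fun h => hij h.1)]
        decide
    · rw [if_neg (fun h : i = j ∧ i ∈ Z => hj (h.1 ▸ h.2))]
      refine Finset.sum_eq_zero fun z _ => ?_
      simp [sqS, vecMulVec_apply, ind, hj]
  · rw [if_neg (fun h => hi h.2)]
    refine Finset.sum_eq_zero fun z _ => ?_
    simp [sqS, vecMulVec_apply, ind, hi]

theorem rk_four_one {Z : Finset I} (hZ : Z.card = 4) {z : I} (hz : z ∈ Z) :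
    Rk 3 (Dg Z + sqS (Z.erase z)) := by
  have h := Rk.sum (Z.erase z) (fun w => ind (Z.erase w))
  rw [Finset.card_erase_of_mem hz, hZ] at h
  rw [← four_sum hZ, ← Finset.add_sum_erase Z _ hz, add_comm (sqS _), add_assoc, mat_add_self,
    add_zero]
  exact h

theorem rk_four_two {Z : Finset I} (hZ : Z.card = 4) {z z' : I} (hz : z ∈ Z) (hz' : z' ∈ Z)
    (hne : z' ≠ z) : Rk 2 (Dg Z + sqS (Z.erase z) + sqS (Z.erase z')) := by
  have hm : z' ∈ Z.erase z := Finset.mem_erase.2 ⟨hne, hz'⟩
  have h := Rk.sum ((Z.erase z).erase z') (fun w => ind (Z.erase w))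
  rw [Finset.card_erase_of_mem hm, Finset.card_erase_of_mem hz, hZ] at h
  rw [← four_sum hZ, ← Finset.add_sum_erase Z _ hz, add_comm (sqS _),
    add_assoc _ (sqS (Z.erase z)) (sqS (Z.erase z)),
    mat_add_self, add_zero, ← Finset.add_sum_erase _ _ hm, add_comm (sqS _), add_assoc,
    mat_add_self, add_zero]
  exact h

theorem exists_erase {S Z : Finset I} (h : S ⊆ Z) (hS : S.card = 3) (hZ : Z.card = 4) :
    ∃ z ∈ Z, S = Z.erase z := by
  obtain ⟨z, hz, hzS⟩ := Finset.exists_mem_notMem_of_card_lt_card (s := S) (t := Z) (by omega)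
  refine ⟨z, hz, Finset.eq_of_subset_of_card_le (fun x hx => ?_) ?_⟩
  · exact Finset.mem_erase.2 ⟨fun h' => hzS (h' ▸ hx), h hx⟩
  · rw [Finset.card_erase_of_mem hz]; omega

end general

abbrev H17 := Fin 17

abbrev Tr := {S : Finset H17 // S.card = 3}

theorem card_Tr : Fintype.card Tr = 680 := by
  rw [Fintype.card_finset_len, Fintype.card_fin]; rfl

def LL (S : Tr) : Matrix H17 H17 F2 := sqS S.1

def orth (S T : Tr) : Prop := (S.1 ∩ T.1).card = 0 ∨ (S.1 ∩ T.1).card = 2

instance (S T : Tr) : Decidable (orth S T) := by unfold orth; infer_instance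

theorem exists_notMem (Z : Finset H17) (hZ : Z.card < 17) : ∃ d, d ∉ Z := by
  obtain ⟨d, _, hd⟩ := Finset.exists_mem_notMem_of_card_lt_card (s := Z) (t := univ)
    (by simpa using hZ)
  exact ⟨d, hd⟩

theorem rk_LL (S : Tr) : Rk 1 (LL S) := Rk.sq _

theorem rk_one17 : Rk 17 (1 : Matrix H17 H17 F2) := by
  have := Rk.Dg (univ : Finset H17)
  rwa [Dg_univ, Finset.card_univ, Fintype.card_fin] at this

theorem rk_one_LL (S : Tr) : Rk 16 (1 + LL S) := by
  obtain ⟨d, hd⟩ := exists_notMem S.1 (by rw [S.2]; norm_num)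
  have hZ : (insert d S.1).card = 4 := by rw [Finset.card_insert_of_notMem hd, S.2]
  have h1 := rk_four_one hZ (Finset.mem_insert_self d _)
  rw [Finset.erase_insert hd] at h1
  have h2 := Rk.Dg (insert d S.1)ᶜ
  rw [Finset.card_compl, hZ, Fintype.card_fin] at h2
  rw [one_eq_Dg (insert d S.1), add_assoc]
  exact h2.add h1

theorem rk_one_LL_LL {S T : Tr} (h : orth S T) : Rk 15 (1 + LL S + LL T) := by
  have hu := Finset.card_union_add_card_inter S.1 T.1
  rw [S.2, T.2] at hu
  rcases h with h | h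
  · obtain ⟨d, hd⟩ := exists_notMem (S.1 ∪ T.1) (by omega)
    obtain ⟨d', hd'⟩ := exists_notMem (insert d (S.1 ∪ T.1))
      (by rw [Finset.card_insert_of_notMem hd]; omega)
    simp only [Finset.mem_insert, Finset.mem_union, not_or] at hd hd'
    have hZ : (insert d S.1).card = 4 := by rw [Finset.card_insert_of_notMem hd.1, S.2]
    have hZ' : (insert d' T.1).card = 4 := by rw [Finset.card_insert_of_notMem hd'.2.2, T.2]
    have h1 := rk_four_one hZ (Finset.mem_insert_self d _)
    have h1' := rk_four_one hZ' (Finset.mem_insert_self d' _)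
    rw [Finset.erase_insert hd.1] at h1
    rw [Finset.erase_insert hd'.2.2] at h1'
    have hdis : Disjoint (insert d S.1) (insert d' T.1) := by
      rw [Finset.card_eq_zero, ← Finset.disjoint_iff_inter_eq_empty] at h
      simp only [Finset.disjoint_insert_left, Finset.disjoint_insert_right, Finset.mem_insert,
        not_or]
      exact ⟨⟨hd'.1, hd'.2.1⟩, hd.2, h⟩
    have h2 := Rk.Dg (insert d S.1 ∪ insert d' T.1)ᶜ
    rw [Finset.card_compl, Finset.card_union_of_disjoint hdis, hZ, hZ', Fintype.card_fin] at h2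
    have h3 := h2.add (h1.add h1')
    rw [one_eq_Dg (insert d S.1 ∪ insert d' T.1), Dg_union hdis]
    convert h3 using 1
    simp only [LL]
    abel
  · have hZ : (S.1 ∪ T.1).card = 4 := by omega
    obtain ⟨z, hz, hS⟩ := exists_erase Finset.subset_union_left S.2 hZ
    obtain ⟨z', hz', hT⟩ := exists_erase Finset.subset_union_right T.2 hZ
    have hne : z' ≠ z := by
      rintro rfl
      have : S.1 = T.1 := hS.trans hT.symm
      rw [this, Finset.inter_self, T.2] at h
      omega
    have h1 := rk_four_two hZ hz hz' hne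
    rw [← hS, ← hT] at h1
    have h2 := Rk.Dg (S.1 ∪ T.1)ᶜ
    rw [Finset.card_compl, hZ, Fintype.card_fin] at h2
    have h3 := h2.add h1
    rw [one_eq_Dg (S.1 ∪ T.1)]
    convert h3 using 1
    simp only [LL]
    abel

noncomputable def al (S : Tr) (i : H17) : ℂ := if i ∈ S.1 then 1 else 0
noncomputable def be (i : H17) (T : Tr) : ℂ := ((if i ∈ T.1 then 1 else 0) - 1 / 3) / 2
noncomputable def ee (S T : Tr) : ℂ := (if S = T then 1 else 0) - ∑ i, al S i * be i T

theorem sum_al_be (S T : Tr) : ∑ i, al S i * be i T = (((S.1 ∩ T.1).card : ℂ) - 1) / 2 := by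
  simp only [al, be, ite_mul, one_mul, zero_mul]
  rw [Finset.sum_ite_mem, Finset.univ_inter, ← Finset.sum_div, Finset.sum_sub_distrib,
    Finset.sum_ite_mem, Finset.sum_const, Finset.sum_const, S.2]
  simp

theorem orth_of_ee {S T : Tr} (h : ee S T ≠ 0) : orth S T := by
  by_contra hn
  apply h
  rw [orth, not_or] at hn
  have h3 : (S.1 ∩ T.1).card ≤ 3 :=
    (Finset.card_le_card Finset.inter_subset_left).trans (le_of_eq S.2)
  rw [ee, sum_al_be]
  by_cases hST : S = T
  · subst hST
    rw [if_pos rfl, Finset.inter_self, S.2]; norm_num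
  · have h1 : (S.1 ∩ T.1).card ≠ 3 := by
      intro h1
      apply hST
      have hs : S.1 ∩ T.1 = S.1 :=
        Finset.eq_of_subset_of_card_le Finset.inter_subset_left (by rw [h1, S.2])
      have ht : S.1 ∩ T.1 = T.1 :=
        Finset.eq_of_subset_of_card_le Finset.inter_subset_right (by rw [h1, T.2])
      exact Subtype.ext (hs.symm.trans ht)
    have : (S.1 ∩ T.1).card = 1 := by omega
    rw [if_neg hST, this]; norm_num

end Vale.Agent.P344
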