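import Vale.Agent.P344.Network

/-! The recursion: tensor powers of a two by two matrix cost less than one pass per factor. -/

namespace Vale.Agent.P344

open Finset Matrix Kronecker

set_option linter.unusedSectionVars false

variable {V : Type} [AddCommGroup V] [Module ℂ V]

theorem Cost.Sm_equiv {K K' : Type*} [Fintype K] [DecidableEq K] [Fintype K'] [DecidableEq K']
    (e : K ≃ K') {s : ℝ} (h : Cost V (Sm K') s) : Cost V (Sm K) s := by
  have : Sm K = (Sm K').submatrix (Equiv.arrowCongr e (Equiv.refl F2))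
      (Equiv.arrowCongr e (Equiv.refl F2)) := by
    ext x y
    simp only [Sm, submatrix_apply, Equiv.arrowCongr_apply, Equiv.coe_refl, Function.comp, id]
    exact Fintype.prod_equiv e _ _ fun j => by simp
  rw [this]
  exact h.submatrix _ _

theorem Cost.Sm_sum {J J' : Type*} [Fintype J] [DecidableEq J] [Fintype J'] [DecidableEq J']
    {s t : ℝ} (h : CostF V (J' → F2) (Sm J) s) (h' : CostF V (J → F2) (Sm J') t) :
    Cost V (Sm (J ⊕ J')) (s + t) := by
  have : Sm (J ⊕ J') = ((Sm J ⊗ₖ (1 : Matrix (J' → F2) (J' → F2) ℂ)) *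
      ((1 : Matrix (J → F2) (J → F2) ℂ) ⊗ₖ Sm J')).submatrix
      (Equiv.sumArrowEquivProdArrow J J' F2) (Equiv.sumArrowEquivProdArrow J J' F2) := by
    rw [← mul_kronecker_mul, Matrix.mul_one, Matrix.one_mul]
    ext x y
    simp [Sm, Fintype.prod_sum_type, Equiv.sumArrowEquivProdArrow]
  rw [this]
  exact (h.kron_one.mul h'.one_kron).submatrix _ _

noncomputable def tau : ℝ := 1 - 6 / 10 ^ 8

theorem tau_pos : 0 < tau := by unfold tau; norm_num

theorem rpow_tau_ge : (289 - 10821 / 10 ^ 8 : ℝ) ≤ (289 : ℝ) ^ tau := by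
  have hlog : Real.log 289 ≤ 6.24 := by
    have h1 : Real.log 289 ≤ Real.log (2 ^ 9) := Real.log_le_log (by norm_num) (by norm_num)
    rw [Real.log_pow] at h1
    have := Real.log_two_lt_d9
    push_cast at h1
    linarith
  rw [tau, sub_eq_add_neg (1 : ℝ), Real.rpow_add (by norm_num), Real.rpow_one,
    Real.rpow_def_of_pos (by norm_num)]
  have := Real.add_one_le_exp (Real.log 289 * -(6 / 10 ^ 8))
  nlinarith

theorem one_le_rpow_tau (k : ℕ) : (1 : ℝ) ≤ ((k : ℝ) + 1) ^ tau :=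
  Real.one_le_rpow (by linarith [(Nat.cast_nonneg k : (0 : ℝ) ≤ k)]) tau_pos.le

theorem rec_ineq {q W R N C t₀ t B : ℝ} (hq : 0 ≤ q) (hW1 : 1 ≤ W) (hW : W ≤ 629788800)
    (h1 : R ≤ q * W) (h2 : q * W ≤ R + W) (hR : 2 ^ 64 ≤ R) (hRB : R ≤ B) (hN : 0 ≤ N)
    (hC : C = 10 ^ 9 * (2 * 10 ^ 11 + 2 * B)) (ht₀ : 1 ≤ t₀)
    (ht : (289 - 10821 / 10 ^ 8) * t₀ ≤ t) :
    q * ((W * 289 - 102 * 680) * (N * (C * t₀)) + 10 ^ 11 * N) + N * (R * (2 * R))
      ≤ C * (N * R) * t := by
  have hR0 : 0 ≤ R := le_trans (by norm_num) hR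
  have hC0 : 0 ≤ C := by rw [hC]; nlinarith
  have h3 : R ≤ q * 629788800 := h1.trans (mul_le_mul_of_nonneg_left hW hq)
  have h4 : q * (W * 289 - 102 * 680) ≤ (289 - 11 / 10 ^ 5) * R := by nlinarith
  have h5 : q ≤ 2 * R := by nlinarith
  have h6 : q * (W * 289 - 102 * 680) * (C * t₀) ≤ (289 - 11 / 10 ^ 5) * R * (C * t₀) :=
    mul_le_mul_of_nonneg_right h4 (by positivity)
  have h7 : (289 - 11 / 10 ^ 5) * t₀ + 1 / 10 ^ 9 ≤ t := by linarith
  have h8 : R * C * ((289 - 11 / 10 ^ 5) * t₀ + 1 / 10 ^ 9) ≤ R * C * t :=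
    mul_le_mul_of_nonneg_left h7 (by positivity)
  have h9 : R * (2 * R) ≤ R * (2 * B) := mul_le_mul_of_nonneg_left (by linarith) hR0
  have h10 : R * C * (1 / 10 ^ 9) = R * (2 * 10 ^ 11) + R * (2 * B) := by rw [hC]; ring
  have key : q * (W * 289 - 102 * 680) * (C * t₀) + 10 ^ 11 * q + R * (2 * R) ≤ R * C * t := by
    nlinarith
  have := mul_le_mul_of_nonneg_left key hN
  nlinarith

theorem Sm_cost_aux {H Tr : Type} [Fintype H] [DecidableEq H] [Fintype Tr] [DecidableEq Tr]
    (D : Design H Tr) :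
    ∃ C : ℝ, 0 ≤ C ∧ ∀ k : ℕ, Cost V (Sm (Fin k)) (C * 2 ^ k * ((k : ℝ) + 1) ^ tau) := by
  obtain ⟨B, hB⟩ : ∃ B : ℝ, ∀ r < 600, (2 : ℝ) ^ r ≤ B :=
    ⟨2 ^ 600, fun r hr => pow_le_pow_right₀ (by norm_num) hr.le⟩
  have hB1 : 1 ≤ B := by simpa using hB 0 (by norm_num)
  obtain ⟨C, hC⟩ : ∃ C : ℝ, C = 10 ^ 9 * (2 * 10 ^ 11 + 2 * B) := ⟨_, rfl⟩
  have hC0 : 0 ≤ C := by rw [hC]; positivity
  have hWle : (Fintype.card D.Wires : ℝ) ≤ 629788800 := by
    have := D.card_Pr
    simp only [Fintype.card_prod, Fintype.card_sum, D.card_Tr]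
    push_cast
    linarith
  have hWpos : 0 < Fintype.card D.Wires := by
    simp only [Fintype.card_prod, Fintype.card_sum, D.card_Tr]
    omega
  refine ⟨C, hC0, fun k => ?_⟩
  induction k using Nat.strong_induction_on with
  | _ k ih =>
    by_cases hk : k < 600
    · refine (Cost.triv _).mono ?_
      have h1 := hB k hk
      have h2 := one_le_rpow_tau k
      have h3 : (0 : ℝ) < 2 ^ k := by positivity
      simp only [Fintype.card_pi, ZMod.card, Finset.prod_const, Finset.card_univ,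
        Fintype.card_fin]
      push_cast
      have h4 : 2 * (2 : ℝ) ^ k ≤ C := by rw [hC]; linarith
      calc (2 : ℝ) ^ k * (2 * 2 ^ k) ≤ 2 ^ k * C := mul_le_mul_of_nonneg_left h4 h3.le
        _ = C * 2 ^ k * 1 := by ring
        _ ≤ _ := mul_le_mul_of_nonneg_left h2 (by positivity)
    · obtain ⟨k₀, r, hr1, hr2, rfl⟩ : ∃ k₀ r, 300 ≤ r ∧ r < 600 ∧ k = 289 * k₀ + r :=
        ⟨(k - 300) / 289, k - 289 * ((k - 300) / 289), by omega, by omega, by omega⟩
      have hnet := network D (ih k₀ (by omega))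
      have hcard : Fintype.card (Fin r → F2) = 2 ^ r := by simp
      have hq1 : 2 ^ r ≤ (2 ^ r / Fintype.card D.Wires + 1) * Fintype.card D.Wires := by
        rw [add_mul, one_mul]
        exact (Nat.lt_div_mul_add hWpos).le
      have hq2 : (2 ^ r / Fintype.card D.Wires + 1) * Fintype.card D.Wires
          ≤ 2 ^ r + Fintype.card D.Wires := by
        rw [add_mul, one_mul]
        exact Nat.add_le_add_right (Nat.div_mul_le_self _ _) _
      generalize 2 ^ r / Fintype.card D.Wires + 1 = q at hq1 hq2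
      have hb := hnet.batch (D' := Fin r → F2) q (by rw [hcard]; exact hq1)
      have htriv := (Cost.triv (V := V) (Sm (Fin r))).toF ((H × H) × Fin k₀ → F2)
      have e : Fin (289 * k₀ + r) ≃ ((H × H) × Fin k₀) ⊕ Fin r :=
        Fintype.equivOfCardEq (by simp [D.card_H])
      refine (Cost.Sm_equiv e (Cost.Sm_sum hb htriv)).mono ?_
      have ht : (289 - 10821 / 10 ^ 8) * ((k₀ : ℝ) + 1) ^ tau
          ≤ (((289 * k₀ + r : ℕ) : ℝ) + 1) ^ tau := by
        refine (mul_le_mul_of_nonneg_right rpow_tau_ge (by positivity)).trans ?_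
        rw [← Real.mul_rpow (by norm_num) (by positivity)]
        refine Real.rpow_le_rpow (by positivity) ?_ tau_pos.le
        have : (300 : ℝ) ≤ r := by exact_mod_cast hr1
        push_cast
        linarith
      have key := rec_ineq (q := q) (W := Fintype.card D.Wires) (R := 2 ^ r)
        (N := 2 ^ (289 * k₀)) (Nat.cast_nonneg q) (by exact_mod_cast hWpos) hWle
        (by exact_mod_cast hq1) (by exact_mod_cast hq2)
        (pow_le_pow_right₀ (by norm_num) (by omega)) (hB r hr2) (by positivity) hC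
        (one_le_rpow_tau k₀) ht
      convert key using 1
      · simp only [TT, NN, Fintype.card_pi, ZMod.card, Finset.prod_const, Finset.card_univ,
          Fintype.card_fin, Fintype.card_prod, D.card_H]
        push_cast
        rw [show (2 : ℝ) ^ (289 * k₀) = 2 ^ (288 * k₀) * 2 ^ k₀ by rw [← pow_add]; congr 1; ring]
        ring
      · rw [pow_add]

theorem Sm_cost : ∃ C : ℝ, 0 ≤ C ∧ ∀ (K : Type) [Fintype K] [DecidableEq K],
    Cost V (Sm K) (C * 2 ^ Fintype.card K * ((Fintype.card K : ℝ) + 1) ^ tau) := by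
  obtain ⟨C, hC, h⟩ := Sm_cost_aux (V := V) design17
  exact ⟨C, hC, fun K _ _ => Cost.Sm_equiv (Fintype.equivFin K) (h _)⟩

end Vale.Agent.P344
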