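import Vale.Agent.P344.Comp

/-! Quadratic phases on binary cubes and the cost of changing them. -/

namespace Vale.Agent.P344

open Finset Matrix

set_option linter.unusedSectionVars false

abbrev F2 := ZMod 2

theorem f2_cases (a : F2) : a = 0 ∨ a = 1 := by revert a; decide
theorem f2_add_self (a : F2) : a + a = 0 := by revert a; decide
theorem f2_one_ne : (1 : F2) ≠ 0 := by decide

theorem vec_add_self {J : Type*} (x : J → F2) : x + x = 0 := by
  funext j; exact f2_add_self _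

theorem mat_add_self {I J : Type*} (M : Matrix I J F2) : M + M = 0 := by
  ext i j; exact f2_add_self _

noncomputable def sgn (a : F2) : ℂ := if a = 0 then 1 else -1
noncomputable def om (a : F2) : ℂ := if a = 0 then 1 else Complex.I
noncomputable def sk (a : F2) : ℂ := if a = 0 then (1 + Complex.I) / 2 else (1 - Complex.I) / 2

@[simp] theorem sgn_zero : sgn 0 = 1 := by simp [sgn]
@[simp] theorem sgn_one : sgn 1 = -1 := by simp [sgn]
@[simp] theorem om_zero : om 0 = 1 := by simp [om]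
@[simp] theorem om_one : om 1 = Complex.I := by simp [om]
theorem sk_zero : sk 0 = (1 + Complex.I) / 2 := by simp [sk]
theorem sk_one : sk 1 = (1 - Complex.I) / 2 := by simp [sk]

theorem sk_add : sk 0 + sk 1 = 1 := by rw [sk_zero, sk_one]; ring

theorem sgn_add (a b : F2) : sgn (a + b) = sgn a * sgn b := by
  rcases f2_cases a with rfl | rfl <;> rcases f2_cases b with rfl | rfl <;> simp [f2_add_self]

theorem sgn_mul_self (a : F2) : sgn a * sgn a = 1 := by
  rw [← sgn_add, f2_add_self, sgn_zero]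

theorem sgn_ne_zero (a : F2) : sgn a ≠ 0 := left_ne_zero_of_mul_eq_one (sgn_mul_self a)

theorem sgn_inv (a : F2) : (sgn a)⁻¹ = sgn a := inv_eq_of_mul_eq_one_right (sgn_mul_self a)

theorem sgn_sum {ι : Type*} (Z : Finset ι) (f : ι → F2) :
    sgn (∑ i ∈ Z, f i) = ∏ i ∈ Z, sgn (f i) := by
  classical
  induction Z using Finset.induction_on with
  | empty => simp
  | insert a Z ha ih => rw [Finset.sum_insert ha, Finset.prod_insert ha, sgn_add, ih]

theorem om_add (a b : F2) : om (a + b) = om a * om b * sgn (a * b) := by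
  rcases f2_cases a with rfl | rfl <;> rcases f2_cases b with rfl | rfl <;> simp [f2_add_self]

theorem sum_f2 {M : Type*} [AddCommMonoid M] (f : F2 → M) : ∑ c, f c = f 0 + f 1 :=
  Fin.sum_univ_two f

theorem om_eq (a : F2) : om a = ∑ c, sk c * sgn (c * a) := by
  rw [sum_f2, sk_zero, sk_one]
  rcases f2_cases a with rfl | rfl <;> simp <;> ring

/-- The tensor power of the square root of the swap matrix. -/
noncomputable def Sm (K : Type*) [Fintype K] : Matrix (K → F2) (K → F2) ℂ :=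
  fun x y => ∏ j, sk (x j + y j)

variable {V : Type} [AddCommGroup V] [Module ℂ V]

theorem act_Sm {K : Type*} [Fintype K] [DecidableEq K] (w : (K → F2) → V) (x : K → F2) :
    act (Sm K) w x = ∑ y : K → F2, (∏ j, sk (y j)) • w (x + y) := by
  rw [act, ← Equiv.sum_comp (Equiv.addLeft x)]
  refine Finset.sum_congr rfl fun y _ => ?_
  simp [Sm, ← add_assoc, f2_add_self]

section phys

variable {J : Type*} [Fintype J] [DecidableEq J]

theorem sum_sgn (c : J → F2) :
    ∑ ξ : J → F2, sgn (c ⬝ᵥ ξ) = if c = 0 then (Fintype.card (J → F2) : ℂ) else 0 := by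
  split_ifs with h
  · subst h; simp
  · obtain ⟨j, hj⟩ := Function.ne_iff.1 h
    have hj1 : c j = 1 := (f2_cases _).resolve_left hj
    have h1 := Equiv.sum_comp (Equiv.addRight (Pi.single j (1 : F2) : J → F2))
      (fun ξ => sgn (c ⬝ᵥ ξ))
    simp only [Equiv.coe_addRight, dotProduct_add, dotProduct_single, hj1, mul_one, sgn_add,
      sgn_one, mul_neg, Finset.sum_neg_distrib] at h1
    linear_combination (-1 / 2 : ℂ) * h1

noncomputable def phys (μ : (J → F2) → ℂ) (v : (J → F2) → V) : (J → F2) → V :=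
  fun x => ∑ ξ, (sgn (x ⬝ᵥ ξ) * μ ξ) • v ξ

theorem phys_char (c : J → F2) (μ : (J → F2) → ℂ) (v : (J → F2) → V) (x : J → F2) :
    phys (fun ξ => sgn (c ⬝ᵥ ξ) * μ ξ) v x = phys μ v (x + c) := by
  simp only [phys, add_dotProduct, sgn_add, mul_assoc]

theorem phys_sum {κ : Type*} (Z : Finset κ) (μ : (J → F2) → ℂ) (c : κ → ℂ)
    (v : κ → (J → F2) → V) (x : J → F2) :
    phys μ (∑ k ∈ Z, c k • v k) x = ∑ k ∈ Z, c k • phys μ (v k) x := by
  simp only [phys, Finset.sum_apply, Pi.smul_apply, Finset.smul_sum]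
  rw [Finset.sum_comm]
  refine Finset.sum_congr rfl fun k _ => Finset.sum_congr rfl fun ξ _ => smul_comm _ _ _

theorem prod_om {K : Type*} [Fintype K] [DecidableEq K] (g : K → J → F2) (ξ : J → F2) :
    ∏ j, om (g j ⬝ᵥ ξ) = ∑ y : K → F2, (∏ j, sk (y j)) * sgn ((∑ j, y j • g j) ⬝ᵥ ξ) := by
  simp only [om_eq]
  rw [Fintype.prod_sum]
  refine Finset.sum_congr rfl fun y _ => ?_
  rw [Finset.prod_mul_distrib, sum_dotProduct, sgn_sum]
  simp

theorem phys_om {K : Type*} [Fintype K] [DecidableEq K] (g : K → J → F2) (μ : (J → F2) → ℂ)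
    (v : (J → F2) → V) (x : J → F2) :
    phys (fun ξ => (∏ j, om (g j ⬝ᵥ ξ)) * μ ξ) v x
      = ∑ y : K → F2, (∏ j, sk (y j)) • phys μ v (x + ∑ j, y j • g j) := by
  simp only [phys, prod_om, Finset.smul_sum, Finset.sum_mul, Finset.mul_sum, Finset.sum_smul]
  rw [Finset.sum_comm]
  refine Finset.sum_congr rfl fun y _ => Finset.sum_congr rfl fun ξ _ => ?_
  rw [smul_smul, add_dotProduct, sgn_add]
  congr 1
  ring

theorem phys_surj (μ : (J → F2) → ℂ) (hμ : ∀ ξ, μ ξ ≠ 0) (w : (J → F2) → V) :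
    ∃ v, phys μ v = w := by
  refine ⟨fun ξ => ∑ z, ((μ ξ)⁻¹ * (Fintype.card (J → F2) : ℂ)⁻¹ * sgn (z ⬝ᵥ ξ)) • w z, ?_⟩
  funext x
  simp only [phys, Finset.smul_sum, smul_smul]
  rw [Finset.sum_comm]
  simp only [← Finset.sum_smul]
  have hc : (Fintype.card (J → F2) : ℂ) ≠ 0 := by
    exact_mod_cast Fintype.card_ne_zero
  have key : ∀ z : J → F2, ∑ ξ : J → F2, sgn (x ⬝ᵥ ξ) * μ ξ *
      ((μ ξ)⁻¹ * (Fintype.card (J → F2) : ℂ)⁻¹ * sgn (z ⬝ᵥ ξ)) = if z = x then 1 else 0 := by
    intro z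
    have : ∀ ξ : J → F2, sgn (x ⬝ᵥ ξ) * μ ξ *
        ((μ ξ)⁻¹ * (Fintype.card (J → F2) : ℂ)⁻¹ * sgn (z ⬝ᵥ ξ))
        = (Fintype.card (J → F2) : ℂ)⁻¹ * sgn ((x + z) ⬝ᵥ ξ) := by
      intro ξ
      rw [add_dotProduct, sgn_add]
      field_simp [hμ ξ]
    simp only [this, ← Finset.mul_sum, sum_sgn]
    by_cases h : z = x
    · subst h
      rw [if_pos (vec_add_self z), if_pos rfl, inv_mul_cancel₀ hc]
    · rw [if_neg, if_neg h, mul_zero]
      intro h'
      apply h
      have : x + (x + z) = x + 0 := by rw [h']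
      rwa [← add_assoc, vec_add_self, zero_add, add_zero] at this
  simp only [key]
  simp [ite_smul]

theorem char_eq (ν : (J → F2) → ℂ) (h0 : ν 0 = 1) (hadd : ∀ ξ η, ν (ξ + η) = ν ξ * ν η) :
    ∃ c : J → F2, ∀ ξ, ν ξ = sgn (c ⬝ᵥ ξ) := by
  refine ⟨fun j => if ν (Pi.single j 1) = 1 then 0 else 1, fun ξ => ?_⟩
  induction ξ using Pi.single_induction with
  | zero => simp [h0]
  | add f g hf hg => rw [hadd, dotProduct_add, sgn_add, hf, hg]
  | single i m =>
    rcases f2_cases m with rfl | rfl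
    · simp [h0]
    · rw [dotProduct_single, mul_one]
      have h2 : ν (Pi.single i 1) * ν (Pi.single i 1) = 1 := by
        rw [← hadd, vec_add_self, h0]
      split_ifs with h
      · simp [h]
      · rw [sgn_one]
        exact (mul_self_eq_one_iff.1 h2).resolve_left h

end phys

section QP

variable {I K : Type*} [Fintype I] [DecidableEq I] [Fintype K] [DecidableEq K]

def bil (M : Matrix I I F2) (ξ η : I × K → F2) : F2 :=
  ∑ j : K, ∑ a : I, ∑ b : I, ξ (a, j) * M a b * η (b, j)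

/-- `μ` is a quadratic phase whose polarization is `M` in each of the `K` slices. -/
structure QP (M : Matrix I I F2) (μ : (I × K → F2) → ℂ) : Prop where
  zero : μ 0 = 1
  add : ∀ ξ η, μ (ξ + η) = μ ξ * μ η * sgn (bil M ξ η)

omit [DecidableEq I] [DecidableEq K] in
theorem bil_add (M N : Matrix I I F2) (ξ η : I × K → F2) :
    bil (M + N) ξ η = bil M ξ η + bil N ξ η := by
  simp only [bil, Matrix.add_apply, mul_add, add_mul, Finset.sum_add_distrib]

omit [DecidableEq I] [DecidableEq K] in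
theorem bil_zero (ξ η : I × K → F2) : bil (0 : Matrix I I F2) ξ η = 0 := by
  simp [bil]

omit [DecidableEq I] [DecidableEq K] in
theorem QP.ne_zero {M : Matrix I I F2} {μ : (I × K → F2) → ℂ} (h : QP M μ) (ξ) : μ ξ ≠ 0 := by
  intro h0
  have := h.add ξ ξ
  rw [vec_add_self, h.zero, h0] at this
  simp at this

omit [DecidableEq I] [DecidableEq K] in
theorem QP.mul {M N : Matrix I I F2} {μ ν : (I × K → F2) → ℂ} (h : QP M μ) (h' : QP N ν) :
    QP (M + N) (fun ξ => μ ξ * ν ξ) :=
  ⟨by simp [h.zero, h'.zero], fun ξ η => by rw [h.add, h'.add, bil_add, sgn_add]; ring⟩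

omit [DecidableEq I] [DecidableEq K] in
theorem QP.inv {M : Matrix I I F2} {μ : (I × K → F2) → ℂ} (h : QP M μ) :
    QP M (fun ξ => (μ ξ)⁻¹) :=
  ⟨by simp [h.zero], fun ξ η => by rw [h.add, mul_inv, mul_inv, sgn_inv]⟩

omit [DecidableEq I] [DecidableEq K] in
theorem QP.one : QP (0 : Matrix I I F2) (fun _ : I × K → F2 => (1 : ℂ)) :=
  ⟨rfl, fun ξ η => by simp [bil_zero]⟩

omit [DecidableEq I] [DecidableEq K] in
theorem QP.of_family {κ : Type*} [Fintype κ] (g : κ → I × K → F2) (M : Matrix I I F2)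
    (hM : ∀ ξ η, bil M ξ η = ∑ j, (g j ⬝ᵥ ξ) * (g j ⬝ᵥ η)) :
    QP M (fun ξ => ∏ j, om (g j ⬝ᵥ ξ)) := by
  refine ⟨by simp, fun ξ η => ?_⟩
  simp only [dotProduct_add, om_add, Finset.prod_mul_distrib, hM, sgn_sum]

/-- The vector `u` placed in slice `j`. -/
def slice (u : I → F2) (j : K) : I × K → F2 := fun p => if p.2 = j then u p.1 else 0

omit [DecidableEq I] in
theorem slice_dot (u : I → F2) (j : K) (ξ : I × K → F2) :
    slice u j ⬝ᵥ ξ = ∑ a, u a * ξ (a, j) := by
  simp [slice, dotProduct, Fintype.sum_prod_type]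

omit [DecidableEq I] in
theorem QP.sq (u : I → F2) :
    QP (vecMulVec u u) (fun ξ : I × K → F2 => ∏ j, om (slice u j ⬝ᵥ ξ)) := by
  refine QP.of_family _ _ fun ξ η => ?_
  simp only [bil, slice_dot, Finset.sum_mul_sum, vecMulVec_apply]
  refine Finset.sum_congr rfl fun j _ => Finset.sum_congr rfl fun a _ =>
    Finset.sum_congr rfl fun b _ => by ring

theorem QP.full :
    QP (1 : Matrix I I F2)
      (fun ξ : I × K → F2 => ∏ p : I × K, om ((Pi.single p 1 : I × K → F2) ⬝ᵥ ξ)) := by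
  refine QP.of_family _ _ fun ξ η => ?_
  simp only [bil, single_dotProduct, one_mul, Matrix.one_apply, mul_ite, mul_one, mul_zero,
    ite_mul, zero_mul, Finset.sum_ite_eq, Finset.mem_univ, if_true]
  rw [Fintype.sum_prod_type, Finset.sum_comm]

/-- All coordinates of the vector `v`, seen in the frame `M`, lie in `A`. -/
def Has (A : Set V) (M : Matrix I I F2) (v : (I × K → F2) → V) : Prop :=
  ∀ μ, QP M μ → ∀ x, phys μ v x ∈ A

theorem Has.mono {A A' : Set V} {M : Matrix I I F2} {v : (I × K → F2) → V} (h : Has A M v)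
    (hA : A ⊆ A') : Has A' M v := fun μ hμ x => hA (h μ hμ x)

theorem Has.of_one {A : Set V} {M : Matrix I I F2} {v : (I × K → F2) → V}
    {μ₀ : (I × K → F2) → ℂ} (h₀ : QP M μ₀) (h : ∀ x, phys μ₀ v x ∈ A) : Has A M v := by
  intro μ hμ x
  have h1 := hμ.mul h₀.inv
  rw [mat_add_self] at h1
  obtain ⟨c, hc⟩ := char_eq (fun ξ => μ ξ * (μ₀ ξ)⁻¹) h1.zero (fun ξ η => by
    have := h1.add ξ η
    simpa [bil_zero] using this)
  have : μ = fun ξ => sgn (c ⬝ᵥ ξ) * μ₀ ξ := by
    funext ξ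
    rw [← hc ξ, inv_mul_cancel_right₀ (h₀.ne_zero ξ)]
  rw [this, phys_char]
  exact h _

omit [Fintype I] [DecidableEq I] in
theorem sum_slice (u : I → F2) (y : K → F2) (p : I × K) :
    (∑ j, y j • slice u j : I × K → F2) p = y p.2 * u p.1 := by
  simp [slice, Finset.sum_apply]

/-- A rank one change of frame is a batch of smaller transforms. -/
theorem coset_cost {c : ℝ} (hc : Cost V (Sm K) c) (u : I → F2) (hu : u ≠ 0) (A : Set V)
    (w : (I × K → F2) → V) (hw : ∀ x, w x ∈ A) :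
    Comp A (2 ^ ((Fintype.card I - 1) * Fintype.card K) * c)
      (Set.range fun x => ∑ y : K → F2, (∏ j, sk (y j)) • w (x + ∑ j, y j • slice u j)) := by
  obtain ⟨a₀, ha₀⟩ := Function.ne_iff.1 hu
  have ha : u a₀ = 1 := (f2_cases _).resolve_left ha₀
  let D := {a // a ≠ a₀} × K → F2
  let ext : D → I × K → F2 := fun d p => if h : p.1 = a₀ then 0 else d (⟨p.1, h⟩, p.2)
  have hD : (Fintype.card D : ℝ) = 2 ^ ((Fintype.card I - 1) * Fintype.card K) := by
    simp [D, Fintype.card_subtype_compl]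
  have := hc.toF D A (fun d y => w (ext d + ∑ j, y j • slice u j)) (fun d y => hw _)
  rw [hD] at this
  refine this.mono_right ?_
  rintro _ ⟨x, rfl⟩
  refine ⟨fun q => x (q.1, q.2) + x (a₀, q.2) * u q.1, fun j => x (a₀, j), ?_⟩
  rw [act_Sm]
  refine Finset.sum_congr rfl fun y _ => ?_
  congr 2
  funext p
  obtain ⟨a, j⟩ := p
  simp only [Pi.add_apply, sum_slice, ext]
  split_ifs with h
  · subst h
    rw [ha]; ring
  · have := f2_add_self (x (a₀, j) * u a)
    linear_combination -this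

/-- Sums of at most `r` rank one symmetric matrices. -/
inductive Rk : ℕ → Matrix I I F2 → Prop
  | zero (r : ℕ) : Rk r 0
  | step (r : ℕ) (u : I → F2) (M : Matrix I I F2) (h : Rk r M) : Rk (r + 1) (M + vecMulVec u u)

theorem Has.move1 {c : ℝ} (hc : Cost V (Sm K) c) (u : I → F2) {A : Set V} {M : Matrix I I F2}
    {v : (I × K → F2) → V} (h : Has A M v) :
    ∃ B, Comp A (2 ^ ((Fintype.card I - 1) * Fintype.card K) * c) B ∧
      Has (A ∪ B) (M + vecMulVec u u) v := by
  have hc0 : 0 ≤ 2 ^ ((Fintype.card I - 1) * Fintype.card K) * c :=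
    mul_nonneg (by positivity) hc.nonneg
  by_cases hu : u = 0
  · subst hu
    refine ⟨∅, Comp.of_subset (by simp) hc0, ?_⟩
    simpa using h
  by_cases hν : ∃ ν : (I × K → F2) → ℂ, QP (M + vecMulVec u u) ν
  · obtain ⟨ν, hν⟩ := hν
    have hq := QP.sq (K := K) u
    have hμ := hν.mul hq.inv
    rw [add_assoc, mat_add_self, add_zero] at hμ
    refine ⟨_, coset_cost hc u hu A _ (h _ hμ), Has.of_one hν fun x => Or.inr ⟨x, ?_⟩⟩
    simp only []
    rw [← phys_om]
    congr 1
    funext ξ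
    have := hq.ne_zero ξ
    field_simp
  · exact ⟨∅, Comp.of_subset (by simp) hc0, fun μ hμ => absurd ⟨μ, hμ⟩ hν⟩

theorem Has.move {c : ℝ} (hc : Cost V (Sm K) c) {r : ℕ} {D : Matrix I I F2} (hD : Rk r D)
    {A : Set V} {M : Matrix I I F2} {v : (I × K → F2) → V} (h : Has A M v) :
    ∃ B, Comp A (r * (2 ^ ((Fintype.card I - 1) * Fintype.card K) * c)) B ∧
      Has (A ∪ B) (M + D) v := by
  have hc0 : 0 ≤ 2 ^ ((Fintype.card I - 1) * Fintype.card K) * c :=
    mul_nonneg (by positivity) hc.nonneg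
  induction hD with
  | zero r => exact ⟨∅, Comp.of_subset (by simp) (by positivity), by simpa using h⟩
  | step r u D _ ih =>
    obtain ⟨B, hB, hh⟩ := ih
    obtain ⟨B', hB', hh'⟩ := hh.move1 hc u
    refine ⟨B ∪ B', ?_, ?_⟩
    · have := hB.trans (hB'.keep.mono_right (B' := B ∪ B') (by
        intro x hx
        rcases hx with hx | hx
        · exact Or.inl (Or.inr hx)
        · exact Or.inr hx))
      exact this.mono_cost (le_of_eq (by push_cast; ring))
    · rw [← add_assoc, ← Set.union_assoc]; exact hh'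

theorem Has.lin {κ : Type*} [Fintype κ] {A : Set V} {M : Matrix I I F2} (c : κ → ℂ)
    (v : κ → (I × K → F2) → V) (h : ∀ k, c k ≠ 0 → Has A M (v k)) :
    ∃ B, Comp A (2 * Fintype.card κ * 2 ^ (Fintype.card I * Fintype.card K)) B ∧
      Has (A ∪ B) M (∑ k, c k • v k) := by
  by_cases hν : ∃ ν : (I × K → F2) → ℂ, QP M ν
  · obtain ⟨ν, hν⟩ := hν
    refine ⟨Set.range (phys ν (∑ k, c k • v k)), ?_, Has.of_one hν fun x => Or.inr ⟨x, rfl⟩⟩
    have := Comp.range (A := A) (phys ν (∑ k, c k • v k)) (2 * Fintype.card κ) fun x => by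
      rw [phys_sum]
      exact Comp.lincomb Finset.univ c _ fun k _ hk => h k hk ν hν x
    refine this.mono_cost (le_of_eq ?_)
    simp [mul_comm]
  · exact ⟨∅, Comp.of_subset (by simp) (by positivity), fun μ hμ => absurd ⟨μ, hμ⟩ hν⟩

end QP

end Vale.Agent.P344
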